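import Mathlib

/-!
P132, Tomita: two facts of complex analysis.
-/

open MeasureTheory Filter Topology Complex
open scoped Real FourierTransform ComplexConjugate Interval

namespace Vale.Agent.P132.Tomita

/-- The weight `exp (-φ t) / (2 cosh (π t))`. -/
noncomputable def wgt (φ t : ℝ) : ℝ := Real.exp (-(φ * t)) / (2 * Real.cosh (π * t))

theorem continuous_wgt (φ : ℝ) : Continuous (wgt φ) :=
  (Real.continuous_exp.comp (by fun_prop)).div (by fun_prop) fun t =>
    (mul_pos two_pos (Real.cosh_pos _)).ne'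

theorem wgt_nonneg (φ t : ℝ) : 0 ≤ wgt φ t :=
  div_nonneg (Real.exp_pos _).le (mul_nonneg zero_le_two (Real.cosh_pos _).le)

theorem exp_abs_le_two_cosh (x : ℝ) : Real.exp |x| ≤ 2 * Real.cosh x := by
  rw [← Real.cosh_abs x, Real.cosh_eq]
  linarith [Real.exp_pos (-|x|)]

theorem wgt_le (φ t : ℝ) : wgt φ t ≤ Real.exp (-((π - |φ|) * |t|)) := by
  rw [wgt, div_le_iff₀ (mul_pos two_pos (Real.cosh_pos _))]
  refine le_trans ?_ (mul_le_mul_of_nonneg_left (exp_abs_le_two_cosh (π * t)) (Real.exp_pos _).le)
  rw [← Real.exp_add, Real.exp_le_exp, abs_mul, abs_of_pos Real.pi_pos]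
  have h : -(φ * t) ≤ |φ| * |t| := by
    rw [← abs_mul]; exact neg_le_abs _
  linarith [sub_mul π |φ| |t|]

theorem integrable_exp_neg_abs {c : ℝ} (hc : 0 < c) :
    Integrable fun t : ℝ => Real.exp (-(c * |t|)) := by
  have h : IntegrableOn (fun t : ℝ => Real.exp (-(c * |t|))) (Set.Iic 0) ∧
      IntegrableOn (fun t : ℝ => Real.exp (-(c * |t|))) (Set.Ioi 0) := by
    constructor
    · refine (integrableOn_exp_mul_Iic hc 0).congr_fun (fun t ht => ?_) measurableSet_Iic
      simp [abs_of_nonpos (Set.mem_Iic.1 ht)]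
    · refine (integrableOn_exp_mul_Ioi (neg_lt_zero.2 hc) 0).congr_fun (fun t ht => ?_)
        measurableSet_Ioi
      simp [abs_of_pos (Set.mem_Ioi.1 ht)]
  have := h.1.union h.2
  rwa [Set.Iic_union_Ioi, integrableOn_univ] at this

theorem integrable_wgt_mul {φ : ℝ} (hφ : |φ| < π) {f : ℝ → ℂ} (hf : Continuous f) {B : ℝ}
    (hB : ∀ t, ‖f t‖ ≤ B) : Integrable fun t => (wgt φ t : ℂ) * f t := by
  refine Integrable.mono' ((integrable_exp_neg_abs (sub_pos.2 hφ)).mul_const B)
    ((continuous_ofReal.comp (continuous_wgt φ)).mul hf).aestronglyMeasurable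
    (Eventually.of_forall fun t => ?_)
  rw [norm_mul, norm_real, Real.norm_of_nonneg (wgt_nonneg _ _)]
  exact mul_le_mul (wgt_le φ t) (hB t) (norm_nonneg _) (Real.exp_pos _).le

theorem hasDerivAt_gd (t : ℝ) :
    HasDerivAt (fun t => 2 / π * Real.arctan (Real.exp (π * t))) (Real.cosh (π * t))⁻¹ t := by
  have h := (((hasDerivAt_id t).const_mul π).exp.arctan).const_mul (2 / π)
  refine h.congr_deriv ?_
  rw [Real.cosh_eq, Real.exp_neg]
  simp only [id_eq, mul_one]
  field_simp
  ring

theorem integrable_sech : Integrable fun t : ℝ => (Real.cosh (π * t))⁻¹ := by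
  refine Integrable.mono' ((integrable_exp_neg_abs Real.pi_pos).const_mul 2)
    ((by fun_prop : Continuous fun t : ℝ => Real.cosh (π * t)).inv₀
      fun t => (Real.cosh_pos _).ne').aestronglyMeasurable (Eventually.of_forall fun t => ?_)
  have := wgt_le 0 t
  simp only [wgt, zero_mul, neg_zero, Real.exp_zero, abs_zero, sub_zero, one_div, mul_inv] at this
  rw [Real.norm_of_nonneg (inv_nonneg.2 (Real.cosh_pos _).le)]
  linarith

theorem integral_sech : ∫ t : ℝ, (Real.cosh (π * t))⁻¹ = 1 := by
  have hbot : Tendsto (fun t => 2 / π * Real.arctan (Real.exp (π * t))) atBot (𝓝 0) := by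
    have h := (Real.continuous_arctan.tendsto 0).comp
      (Real.tendsto_exp_atBot.comp (tendsto_id.const_mul_atBot Real.pi_pos))
    simpa using h.const_mul (2 / π)
  have htop : Tendsto (fun t => 2 / π * Real.arctan (Real.exp (π * t))) atTop (𝓝 1) := by
    have h := ((Real.tendsto_arctan_atTop.mono_right nhdsWithin_le_nhds).comp
      (Real.tendsto_exp_atTop.comp (tendsto_id.const_mul_atTop Real.pi_pos))).const_mul (2 / π)
    rw [show 2 / π * (π / 2) = 1 by field_simp] at h
    exact h
  rw [integral_of_hasDerivAt_of_tendsto hasDerivAt_gd integrable_sech hbot htop, sub_zero]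

theorem abs_sinh_re_le (z : ℂ) : |Real.sinh z.re| ≤ ‖Complex.sinh z‖ := by
  rw [Complex.sinh, Real.sinh_eq, norm_div, abs_div]
  refine div_le_div₀ (norm_nonneg _) ?_ (by simp) (by simp)
  have := abs_norm_sub_norm_le (Complex.exp z) (Complex.exp (-z))
  rwa [Complex.norm_exp, Complex.norm_exp, Complex.neg_re] at this

theorem eq_zero_of_sinh_eq_zero {z : ℂ} (h : Complex.sinh (π * z) = 0) (hz : |z.im| < 1) :
    z = 0 := by
  have h1 := abs_sinh_re_le (π * z)
  rw [h, norm_zero, abs_nonpos_iff, Real.sinh_eq_zero] at h1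
  have hre : z.re = 0 := by
    simp [Complex.mul_re, Real.pi_ne_zero] at h1
    exact h1
  have e : (π : ℂ) * z = ((π * z.im : ℝ) : ℂ) * I := by
    apply Complex.ext <;> simp [hre]
  rw [e, Complex.sinh_mul_I, mul_eq_zero, or_iff_left I_ne_zero, ← Complex.ofReal_sin,
    ofReal_eq_zero] at h
  have hb := abs_lt.1 hz
  rcases Real.sin_eq_zero_iff_of_lt_of_lt (by nlinarith [Real.pi_pos] : -π < π * z.im)
    (by nlinarith [Real.pi_pos]) |>.1 h |> mul_eq_zero.1 with h2 | h2
  · exact absurd h2 Real.pi_ne_zero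
  · exact Complex.ext hre h2

/-- The shifted line integral recovers the value at the origin. -/
theorem contour {F : ℂ → ℂ} (hF : Differentiable ℂ F) {B : ℝ}
    (hB : ∀ z : ℂ, |z.im| ≤ 1 / 2 → ‖F z‖ ≤ B) {φ : ℝ} (hφ : |φ| < π) :
    ∫ t : ℝ, (wgt φ t : ℂ) *
      (Complex.exp ((φ / 2 : ℝ) * I) * F (t + (-1 / 2 : ℝ) * I) +
        conj (Complex.exp ((φ / 2 : ℝ) * I)) * F (t + (1 / 2 : ℝ) * I)) = F 0 := by
  set l := Complex.exp ((φ / 2 : ℝ) * I) with hl
  let E : ℂ → ℂ := fun z => Complex.exp (-((φ : ℂ) * z)) * F z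
  let S : ℂ → ℂ := fun z => Complex.sinh (π * z)
  let G : ℂ → ℂ := fun z => dslope E 0 z / (2 * I * dslope S 0 z)
  have hE : Differentiable ℂ E :=
    (Complex.differentiable_exp.comp (differentiable_id.const_mul (φ : ℂ)).neg).mul hF
  have hS : Differentiable ℂ S :=
    Complex.differentiable_sinh.comp (differentiable_id.const_mul (π : ℂ))
  have hS0 : S 0 = 0 := by simp [S]
  have hE0 : E 0 = F 0 := by simp [E]
  have hne : ∀ z : ℂ, |z.im| < 1 → dslope S 0 z ≠ 0 := by
    intro z hz
    rcases eq_or_ne z 0 with rfl | h0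
    · have hd : HasDerivAt S (π : ℂ) 0 := by
        have := ((Complex.hasDerivAt_sinh _).comp (0 : ℂ) ((hasDerivAt_id 0).const_mul (π : ℂ)))
        simpa [S, Function.comp_def] using this
      rw [dslope_same, hd.deriv]
      exact ofReal_ne_zero.2 Real.pi_ne_zero
    · rw [dslope_of_ne _ h0, slope_def_field, hS0, sub_zero, sub_zero]
      exact div_ne_zero (fun h => h0 (eq_zero_of_sinh_eq_zero h hz)) h0
  have hG : DifferentiableOn ℂ G {z : ℂ | |z.im| < 1} := by
    have a := (Complex.differentiableOn_dslope (c := (0 : ℂ)) univ_mem).2 hE.differentiableOn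
    have b := (Complex.differentiableOn_dslope (c := (0 : ℂ)) univ_mem).2 hS.differentiableOn
    exact (a.mono (Set.subset_univ _)).div
      ((b.mono (Set.subset_univ _)).const_mul (2 * I))
      fun z hz => mul_ne_zero (mul_ne_zero two_ne_zero I_ne_zero) (hne z hz)
  have hGz : ∀ z : ℂ, z ≠ 0 → G z = (E z - F 0) / (2 * I * S z) := by
    intro z hz
    simp only [G, dslope_of_ne _ hz, slope_def_field, hS0, hE0, sub_zero]
    field_simp
  let L : ℝ → ℂ := fun t => G (t + (-1 / 2 : ℝ) * I)
  let U : ℝ → ℂ := fun t => G (t + (1 / 2 : ℝ) * I)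
  have hSl : ∀ t : ℝ, S (t + (-1 / 2 : ℝ) * I) = -I * (Real.cosh (π * t) : ℂ) ∧
      S (t + (1 / 2 : ℝ) * I) = I * (Real.cosh (π * t) : ℂ) := by
    intro t
    constructor
    · show Complex.sinh _ = _
      rw [show (π : ℂ) * (t + (-1 / 2 : ℝ) * I) =
          ((π * t : ℝ) : ℂ) + -((π / 2 : ℝ) : ℂ) * I by push_cast; ring, Complex.sinh_add,
        Complex.sinh_mul_I, Complex.cosh_mul_I, Complex.sin_neg, Complex.cos_neg,
        ← Complex.ofReal_sin, ← Complex.ofReal_cos, Real.sin_pi_div_two, Real.cos_pi_div_two,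
        ← Complex.ofReal_cosh]
      simp
      ring
    · show Complex.sinh _ = _
      rw [show (π : ℂ) * (t + (1 / 2 : ℝ) * I) =
          ((π * t : ℝ) : ℂ) + ((π / 2 : ℝ) : ℂ) * I by push_cast; ring, Complex.sinh_add,
        Complex.sinh_mul_I, Complex.cosh_mul_I, ← Complex.ofReal_sin, ← Complex.ofReal_cos,
        Real.sin_pi_div_two, Real.cos_pi_div_two, ← Complex.ofReal_cosh]
      simp
      ring
  have hline : ∀ (t s : ℝ), s ≠ 0 → (t : ℂ) + (s : ℂ) * I ≠ 0 := fun t s hs h => by
    have := congrArg Complex.im h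
    simp at this
    exact hs this
  have hEl : ∀ t : ℝ, E (t + (-1 / 2 : ℝ) * I) =
      (Real.exp (-(φ * t)) : ℂ) * l * F (t + (-1 / 2 : ℝ) * I) := by
    intro t
    show Complex.exp _ * _ = _
    rw [hl, Complex.ofReal_exp, ← Complex.exp_add]
    congr 2
    push_cast
    ring
  have hEu : ∀ t : ℝ, E (t + (1 / 2 : ℝ) * I) =
      (Real.exp (-(φ * t)) : ℂ) * conj l * F (t + (1 / 2 : ℝ) * I) := by
    intro t
    show Complex.exp _ * _ = _
    rw [hl, ← Complex.exp_conj, map_mul, Complex.conj_ofReal, Complex.conj_I, Complex.ofReal_exp,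
      ← Complex.exp_add]
    congr 2
    push_cast
    ring
  have hsplit : ∀ t : ℝ, (wgt φ t : ℂ) * (l * F (t + (-1 / 2 : ℝ) * I) +
      conj l * F (t + (1 / 2 : ℝ) * I)) =
        (L t - U t) + F 0 * ((Real.cosh (π * t))⁻¹ : ℝ) := by
    intro t
    simp only [L, U, hGz _ (hline t _ (by norm_num : (-1 / 2 : ℝ) ≠ 0)),
      hGz _ (hline t _ (by norm_num : (1 / 2 : ℝ) ≠ 0)), (hSl t).1, (hSl t).2, hEl, hEu, wgt]
    have hc : ((Real.cosh (π * t) : ℝ) : ℂ) ≠ 0 := ofReal_ne_zero.2 (Real.cosh_pos _).ne'
    generalize Real.cosh (π * t) = c at hc ⊢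
    push_cast
    have h2 : I ^ 2 = (-1 : ℂ) := I_sq
    field_simp
    rw [h2]
    ring
  have hiw : Integrable fun t : ℝ => (wgt φ t : ℂ) * (l * F (t + (-1 / 2 : ℝ) * I) +
      conj l * F (t + (1 / 2 : ℝ) * I)) := by
    refine integrable_wgt_mul hφ ((continuous_const.mul (hF.continuous.comp (by fun_prop))).add
      (continuous_const.mul (hF.continuous.comp (by fun_prop)))) (B := B + B) fun t => ?_
    refine (norm_add_le _ _).trans ?_
    rw [norm_mul, norm_mul, RCLike.norm_conj, hl, Complex.norm_exp_ofReal_mul_I, one_mul, one_mul]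
    exact add_le_add (hB _ (by norm_num)) (hB _ (by norm_num))
  have his : Integrable fun t : ℝ => F 0 * (((Real.cosh (π * t))⁻¹ : ℝ) : ℂ) :=
    integrable_sech.ofReal.const_mul (F 0)
  have hiLU : Integrable fun t : ℝ => L t - U t :=
    (hiw.sub his).congr (Eventually.of_forall fun t => by
      simp only [Pi.sub_apply, hsplit t, add_sub_cancel_right])
  have hzero : ∫ t : ℝ, (L t - U t) = 0 := by
    have h1 := intervalIntegral_tendsto_integral hiLU
      (tendsto_neg_atTop_atBot.comp tendsto_natCast_atTop_atTop) tendsto_natCast_atTop_atTop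
    refine tendsto_nhds_unique h1 ?_
    set C := max B 0 + ‖F 0‖ with hC
    refine squeeze_zero_norm' (a := fun n : ℕ => 4 * C * Real.exp (-((π - |φ|) * n))) ?_ ?_
    · filter_upwards [eventually_ge_atTop 1] with n hn
      have hn1 : (1 : ℝ) ≤ n := by exact_mod_cast hn
      have hsub : ([[(-n : ℝ), n]] ×ℂ [[(-1 / 2 : ℝ), 1 / 2]]) ⊆ {z : ℂ | |z.im| < 1} := by
        rintro z ⟨-, h2⟩
        have h3 : z.im ∈ Set.Icc (-1 / 2 : ℝ) (1 / 2) := by
          rwa [Set.mem_preimage, Set.uIcc_of_le (by norm_num)] at h2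
        show |z.im| < 1
        rw [abs_lt]; constructor <;> linarith [h3.1, h3.2]
      have hr := integral_boundary_rect_eq_zero_of_differentiableOn G
        ⟨-n, -1 / 2⟩ ⟨n, 1 / 2⟩ (hG.mono hsub)
      simp only at hr
      have hcont : ∀ s : ℝ, |s| < 1 → Continuous fun t : ℝ => G (t + (s : ℂ) * I) := fun s hs =>
        hG.continuousOn.comp_continuous (by fun_prop) fun t => by simpa using hs
      simp only [Function.comp_def]
      rw [intervalIntegral.integral_sub
        ((hcont _ (by norm_num [abs_lt])).intervalIntegrable _ _)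
        ((hcont _ (by norm_num [abs_lt])).intervalIntegrable _ _)]
      have vert : ∀ x : ℝ, |x| = n →
          ‖∫ y : ℝ in (-1 / 2)..(1 / 2), G (x + y * I)‖ ≤ 2 * C * Real.exp (-((π - |φ|) * n)) := by
        intro x hx
        refine (intervalIntegral.norm_integral_le_of_norm_le_const
          (C := 2 * C * Real.exp (-((π - |φ|) * n))) fun y hy => ?_).trans_eq (by norm_num)
        have hy' : |y| ≤ 1 / 2 := by
          rw [Set.uIoc_of_le (by norm_num)] at hy
          rw [abs_le]; constructor <;> linarith [hy.1, hy.2]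
        have hz : (x : ℂ) + y * I ≠ 0 := fun h => by
          have := congrArg Complex.re h
          simp at this
          rw [this, abs_zero] at hx
          linarith
        rw [hGz _ hz, norm_div, norm_mul, norm_mul, Complex.norm_I, Complex.norm_ofNat]
        have hS' : Real.exp (π * n) / 4 ≤ ‖S (x + y * I)‖ := by
          refine le_trans ?_ (abs_sinh_re_le _)
          have e : ((π : ℂ) * (x + y * I)).re = π * x := by simp
          rw [e, Real.abs_sinh, abs_mul, hx, abs_of_pos Real.pi_pos, Real.sinh_eq]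
          have h2 : Real.exp (-(π * n)) ≤ 1 := Real.exp_le_one_iff.2 (by nlinarith [Real.pi_pos])
          have h3 : 2 ≤ Real.exp (π * n) := by
            have := Real.add_one_le_exp (π * n)
            nlinarith [Real.two_le_pi]
          linarith
        have hE' : ‖E (x + y * I) - F 0‖ ≤ C * Real.exp (|φ| * n) := by
          refine (norm_sub_le _ _).trans ?_
          show ‖Complex.exp _ * _‖ + _ ≤ _
          rw [norm_mul, Complex.norm_exp]
          have h4 : ((-((φ : ℂ) * (x + y * I))).re) ≤ |φ| * n := by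
            simp only [Complex.neg_re, Complex.mul_re, Complex.add_re, Complex.ofReal_re,
              Complex.ofReal_im, Complex.I_re, Complex.I_im, mul_zero, sub_zero, zero_mul,
              add_zero]
            rw [← hx, ← abs_mul]; exact neg_le_abs _
          have h5 : ‖F (x + y * I)‖ ≤ max B 0 :=
            (hB _ (by simpa using hy')).trans (le_max_left _ _)
          have h6 : (1 : ℝ) ≤ Real.exp (|φ| * n) := Real.one_le_exp (by positivity)
          calc _ ≤ Real.exp (|φ| * n) * max B 0 + ‖F 0‖ := add_le_add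
                (mul_le_mul (Real.exp_le_exp.2 h4) h5 (norm_nonneg _) (Real.exp_pos _).le) le_rfl
            _ ≤ _ := by
              rw [hC]
              nlinarith [norm_nonneg (F 0)]
        rw [div_le_iff₀ (by have := Real.exp_pos (π * n); nlinarith)]
        have h7 : Real.exp (-((π - |φ|) * n)) * Real.exp (π * n) = Real.exp (|φ| * n) := by
          rw [← Real.exp_add]; ring_nf
        have hC0 : 0 ≤ C := add_nonneg (le_max_right _ _) (norm_nonneg _)
        calc ‖E (x + y * I) - F 0‖ ≤ C * Real.exp (|φ| * n) := hE'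
          _ = C * Real.exp (-((π - |φ|) * n)) * Real.exp (π * n) := by rw [← h7]; ring
          _ ≤ _ := by
            have := mul_le_mul_of_nonneg_left hS'
              (mul_nonneg hC0 (Real.exp_pos (-((π - |φ|) * n))).le)
            linarith
      have v1 := vert n (abs_of_nonneg (by positivity))
      have v2 := vert (-n) (by rw [abs_neg, abs_of_nonneg (by positivity)])
      have e : (∫ x in (-n : ℝ)..n, L x) - ∫ x in (-n : ℝ)..n, U x =
          I * (∫ y : ℝ in (-1 / 2)..(1 / 2), G (((-n : ℝ) : ℂ) + y * I)) -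
          I * (∫ y : ℝ in (-1 / 2)..(1 / 2), G (((n : ℝ) : ℂ) + y * I)) := by
        rw [smul_eq_mul, smul_eq_mul] at hr
        linear_combination hr
      rw [e]
      refine (norm_sub_le _ _).trans ?_
      rw [norm_mul, norm_mul, Complex.norm_I, one_mul, one_mul]
      linarith
    · have h : Tendsto (fun n : ℕ => Real.exp (-((π - |φ|) * n))) atTop (𝓝 0) :=
        Real.tendsto_exp_atBot.comp (tendsto_neg_atTop_atBot.comp
          (tendsto_natCast_atTop_atTop.const_mul_atTop (sub_pos.2 hφ)))
      simpa using h.const_mul (4 * C)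
  simp only [hsplit]
  rw [integral_add hiLU his, hzero, integral_const_mul, integral_complex_ofReal, integral_sech]
  simp

/-- A bounded continuous function killed by all the weights vanishes. -/
theorem eq_zero_of_wgt {f : ℝ → ℂ} (hf : Continuous f) {B : ℝ} (hB : ∀ t, ‖f t‖ ≤ B)
    (h : ∀ φ : ℝ, |φ| < π → ∫ t : ℝ, (wgt φ t : ℂ) * f t = 0) : f = 0 := by
  let k : ℝ → ℂ := fun t => ((1 / (2 * Real.cosh (π * t)) : ℝ) : ℂ) * f t
  have hk : Continuous k :=
    (continuous_ofReal.comp (continuous_const.div (by fun_prop) fun t =>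
      (mul_pos two_pos (Real.cosh_pos _)).ne')).mul hf
  have hB0 : 0 ≤ B := (norm_nonneg _).trans (hB 0)
  have hkb : ∀ t, ‖k t‖ ≤ B * Real.exp (-(π * |t|)) := by
    intro t
    have := wgt_le 0 t
    simp only [wgt, zero_mul, neg_zero, Real.exp_zero, abs_zero, sub_zero] at this
    rw [norm_mul, norm_real, Real.norm_of_nonneg (div_nonneg zero_le_one
      (mul_pos two_pos (Real.cosh_pos _)).le), mul_comm]
    exact mul_le_mul (hB t) this (by positivity) hB0
  let P : ℂ → ℂ := fun z => ∫ t : ℝ, Complex.exp (-(z * t)) * k t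
  let W : Set ℂ := {z | |z.re| < π}
  have hWo : IsOpen W := isOpen_lt (continuous_re.abs) continuous_const
  have hP : DifferentiableOn ℂ P W := by
    intro z₀ hz
    refine DifferentiableAt.differentiableWithinAt ?_
    set ε := (π - |z₀.re|) / 3 with hε
    have hεp : 0 < ε := by
      have : |z₀.re| < π := hz
      simp only [hε]; linarith
    have hexp : ∀ (z : ℂ) (t : ℝ), ‖Complex.exp (-(z * t))‖ ≤ Real.exp (|z.re| * |t|) := by
      intro z t
      rw [Complex.norm_exp]
      refine Real.exp_le_exp.2 ?_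
      simp only [Complex.neg_re, Complex.mul_re, Complex.ofReal_re, Complex.ofReal_im, mul_zero,
        sub_zero]
      rw [← abs_mul]; exact neg_le_abs _
    have hbase : ∀ z : ℂ, |z.re| ≤ |z₀.re| + ε → ∀ t : ℝ,
        ‖Complex.exp (-(z * t)) * k t‖ ≤ B * Real.exp (-(2 * ε * |t|)) := by
      intro z hz' t
      rw [norm_mul]
      refine (mul_le_mul (hexp z t) (hkb t) (norm_nonneg _) (Real.exp_pos _).le).trans ?_
      rw [mul_left_comm]
      refine mul_le_mul_of_nonneg_left ?_ hB0
      rw [← Real.exp_add, Real.exp_le_exp]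
      have := mul_le_mul_of_nonneg_right hz' (abs_nonneg t)
      have e : π = |z₀.re| + 3 * ε := by simp only [hε]; ring
      rw [e]
      nlinarith
    have hcont : ∀ z : ℂ, Continuous fun t : ℝ => Complex.exp (-(z * t)) * k t := fun z =>
      (Complex.continuous_exp.comp (by fun_prop)).mul hk
    refine (hasDerivAt_integral_of_dominated_loc_of_deriv_le
      (F' := fun z t => -(t : ℂ) * (Complex.exp (-(z * t)) * k t))
      (bound := fun t => B / ε * Real.exp (-(ε * |t|))) (Metric.ball_mem_nhds z₀ hεp)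
      (Eventually.of_forall fun z => (hcont z).aestronglyMeasurable) ?_ ?_ ?_ ?_ ?_).2
      |>.differentiableAt
    · refine Integrable.mono' ((integrable_exp_neg_abs (by linarith : 0 < 2 * ε)).const_mul B)
        (hcont z₀).aestronglyMeasurable (Eventually.of_forall fun t => hbase z₀ (by linarith) t)
    · exact ((continuous_ofReal.neg).mul (hcont z₀)).aestronglyMeasurable
    · refine Eventually.of_forall fun t z hz' => ?_
      have hz'' : |z.re| ≤ |z₀.re| + ε := by
        have h1 := (Complex.abs_re_le_norm (z - z₀)).trans (mem_ball_iff_norm.1 hz').le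
        rw [Complex.sub_re] at h1
        linarith [abs_sub_abs_le_abs_sub z.re z₀.re]
      rw [norm_mul, norm_neg, Complex.norm_real, Real.norm_eq_abs]
      refine (mul_le_mul_of_nonneg_left (hbase z hz'' t) (abs_nonneg _)).trans ?_
      have h2 : |t| ≤ Real.exp (ε * |t|) / ε := by
        rw [le_div_iff₀ hεp]
        linarith [Real.add_one_le_exp (ε * |t|)]
      calc |t| * (B * Real.exp (-(2 * ε * |t|)))
          ≤ Real.exp (ε * |t|) / ε * (B * Real.exp (-(2 * ε * |t|))) :=
            mul_le_mul_of_nonneg_right h2 (by positivity)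
        _ = B / ε * (Real.exp (ε * |t|) * Real.exp (-(2 * ε * |t|))) := by ring
        _ = _ := by rw [← Real.exp_add]; ring_nf
    · exact (integrable_exp_neg_abs hεp).const_mul _
    · refine Eventually.of_forall fun t z _ => ?_
      have := (((hasDerivAt_id z).mul_const (t : ℂ)).neg.cexp.mul_const (k t))
      refine this.congr_deriv ?_
      simp only [id_eq, one_mul, Pi.neg_apply]
      ring
  have hPz : ∀ x : ℝ, |x| < π → P x = 0 := by
    intro x hx
    rw [← h x hx]
    refine integral_congr_ae (Eventually.of_forall fun t => ?_)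
    simp only [k, wgt]
    rw [← Complex.ofReal_mul, ← Complex.ofReal_neg, ← Complex.ofReal_exp]
    push_cast
    ring
  have hWc : IsPreconnected W := by
    have : W = Complex.reLm ⁻¹' Set.Ioo (-π) π := by
      ext z; simp [W, abs_lt]
    rw [this]
    exact ((convex_Ioo _ _).linear_preimage Complex.reLm).isPreconnected
  have hP0 : Set.EqOn P 0 W := by
    refine (hP.analyticOnNhd hWo).eqOn_zero_of_preconnected_of_frequently_eq_zero hWc
      (show (0 : ℂ) ∈ W by simp [W, Real.pi_pos]) ?_
    have ht : Tendsto (fun n : ℕ => ((1 / ((n : ℝ) + 1) : ℝ) : ℂ)) atTop (𝓝[≠] (0 : ℂ)) := by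
      refine tendsto_nhdsWithin_iff.2 ⟨?_, Eventually.of_forall fun n =>
        ofReal_ne_zero.2 (by positivity)⟩
      simpa [Function.comp_def] using
        (Complex.continuous_ofReal.tendsto (0 : ℝ)).comp tendsto_one_div_add_atTop_nhds_zero_nat
    refine ht.frequently (Eventually.frequently (Eventually.of_forall fun n => hPz _ ?_))
    rw [abs_of_pos (by positivity)]
    have : 1 / ((n : ℝ) + 1) ≤ 1 := by
      rw [div_le_one (by positivity)]
      have : (0 : ℝ) ≤ n := n.cast_nonneg
      linarith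
    linarith [Real.two_le_pi]
  have hki : Integrable k :=
    Integrable.mono' ((integrable_exp_neg_abs Real.pi_pos).const_mul B) hk.aestronglyMeasurable
      (Eventually.of_forall hkb)
  have hFk : 𝓕 k = 0 := by
    funext w
    rw [Real.fourier_real_eq_integral_exp_smul]
    have h0 := hP0 (show ((2 * π * w : ℝ) : ℂ) * I ∈ W by simp [W, Real.pi_pos])
    refine Eq.trans (integral_congr_ae (Eventually.of_forall fun t => ?_)) h0
    simp only [smul_eq_mul]
    congr 2
    push_cast
    ring
  have hk0 := hk.fourierInv_fourier_eq hki (by rw [hFk]; exact integrable_zero _ _ _)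
  funext t
  have : k t = 0 := by
    rw [← hk0, hFk]
    simp [FourierTransformInv.fourierInv, VectorFourier.fourierIntegral]
  simp only [k, mul_eq_zero, ofReal_eq_zero] at this
  exact this.resolve_left (one_div_pos.2 (mul_pos two_pos (Real.cosh_pos _))).ne'

end Vale.Agent.P132.Tomita
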