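import Vale.Agent.P132.Tomita.Real

/-!
P132, Tomita: the real subspace of the commutant is the orthogonal complement of `i kS`.
-/

open scoped InnerProductSpace ComplexConjugate
open Vale.Agent.P104.Continuous

namespace Vale.Agent.P132.Tomita

universe u

attribute [local instance] InnerProductSpace.complexToReal

variable {H : Type u} [NormedAddCommGroup H] [InnerProductSpace ℂ H] [CompleteSpace H]

/-- Two copies of `H`. -/
abbrev Two (H : Type u) [NormedAddCommGroup H] [InnerProductSpace ℂ H] : Type u :=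
  WithLp 2 (H × H)

/-- A pair as a vector of `Two H`. -/
noncomputable def inc₁ : H →L[ℂ] Two H :=
  (WithLp.prodContinuousLinearEquiv 2 ℂ H H).symm.toContinuousLinearMap.comp
    (ContinuousLinearMap.inl ℂ H H)

/-- The second inclusion. -/
noncomputable def inc₂ : H →L[ℂ] Two H :=
  (WithLp.prodContinuousLinearEquiv 2 ℂ H H).symm.toContinuousLinearMap.comp
    (ContinuousLinearMap.inr ℂ H H)

/-- The first coordinate. -/
noncomputable def prj₁ : Two H →L[ℂ] H :=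
  (ContinuousLinearMap.fst ℂ H H).comp
    (WithLp.prodContinuousLinearEquiv 2 ℂ H H).toContinuousLinearMap

/-- The second coordinate. -/
noncomputable def prj₂ : Two H →L[ℂ] H :=
  (ContinuousLinearMap.snd ℂ H H).comp
    (WithLp.prodContinuousLinearEquiv 2 ℂ H H).toContinuousLinearMap

/-- An operator in both coordinates. -/
noncomputable def diagOp (y : H →L[ℂ] H) : Two H →L[ℂ] Two H :=
  inc₁.comp (y.comp prj₁) + inc₂.comp (y.comp prj₂)

variable {M : VonNeumannAlgebra H} {ξ : H}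

theorem CycSep.dual_eq_zero (h : CycSep M ξ) {η : H}
    (h1 : ∀ x ∈ M, IsSelfAdjoint x → (⟪η, x ξ⟫_ℂ).re = 0)
    (h2 : ∀ y ∈ M.commutant, IsSelfAdjoint y → (⟪η, y ξ⟫_ℂ).im = 0) : η = 0 := by
  classical
  let W : Submodule ℂ (Two H) :=
    { carrier := {v | ∃ y ∈ M.commutant, v = inc₁ (y ξ) + inc₂ (y η)}
      zero_mem' := ⟨0, zero_mem _, by simp⟩
      add_mem' := by
        rintro _ _ ⟨x, hx, rfl⟩ ⟨y, hy, rfl⟩
        exact ⟨x + y, add_mem hx hy, by simp only [add_apply, map_add]; abel⟩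
      smul_mem' := by
        rintro c _ ⟨x, hx, rfl⟩
        exact ⟨c • x, smul_mem_vn _ hx, by simp⟩ }
  set p := cl W with hp
  have hps : IsSelfAdjoint p := (cl_isProj W).isSelfAdjoint
  have hpi : ∀ v, p (p v) = p v := fun v => by
    rw [← apply_mul, (cl_isProj W).isIdempotentElem.eq]
  have inner_two : ∀ u v : Two H, ⟪u, v⟫_ℂ = ⟪prj₁ u, prj₁ v⟫_ℂ + ⟪prj₂ u, prj₂ v⟫_ℂ :=
    fun u v => by simp [prj₁, prj₂, WithLp.prod_inner_apply]
  have c11 : ∀ v : H, prj₁ (inc₁ v) = v := fun v => by simp [prj₁, inc₁]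
  have c12 : ∀ v : H, prj₁ (inc₂ v) = 0 := fun v => by simp [prj₁, inc₂]
  have c21 : ∀ v : H, prj₂ (inc₁ v) = 0 := fun v => by simp [prj₂, inc₁]
  have c22 : ∀ v : H, prj₂ (inc₂ v) = v := fun v => by simp [prj₂, inc₂]
  have a1 : ∀ (u : H) (v : Two H), ⟪inc₁ u, v⟫_ℂ = ⟪u, prj₁ v⟫_ℂ := fun u v => by
    rw [inner_two, c11, c21, inner_zero_left, add_zero]
  have a2 : ∀ (u : H) (v : Two H), ⟪inc₂ u, v⟫_ℂ = ⟪u, prj₂ v⟫_ℂ := fun u v => by
    rw [inner_two, c12, c22, inner_zero_left, zero_add]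
  have psym : ∀ u v, ⟪p u, v⟫_ℂ = ⟪u, p v⟫_ℂ := inner_proj hps
  have hcomm : ∀ y ∈ M.commutant, diagOp y * p = p * diagOp y := by
    have stab : ∀ y ∈ M.commutant, ∀ v ∈ W, diagOp y v ∈ W := by
      rintro y hy v ⟨z, hz, rfl⟩
      refine ⟨y * z, mul_mem hy hz, ?_⟩
      simp [diagOp, c11, c12, c21, c22]
    intro y hy
    refine cl_comm (stab y hy) ?_
    have e : star (diagOp y) = diagOp (star y) := by
      refine ContinuousLinearMap.ext fun v => ext_inner_left ℂ fun u => ?_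
      rw [ContinuousLinearMap.star_eq_adjoint, ContinuousLinearMap.adjoint_inner_right,
        inner_two, inner_two]
      simp [diagOp, c11, c12, c21, c22, ContinuousLinearMap.star_eq_adjoint,
        ContinuousLinearMap.adjoint_inner_right]
    rw [e]
    exact stab _ (star_mem hy)
  have entry : ∀ (i : H →L[ℂ] Two H) (j : Two H →L[ℂ] H),
      (∀ y : H →L[ℂ] H, ∀ v, diagOp y (i v) = i (y v)) →
      (∀ y : H →L[ℂ] H, ∀ v, j (diagOp y v) = y (j v)) → j.comp (p.comp i) ∈ M := by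
    intro i j hi hj
    refine mem_iff_comm.2 fun y hy => ContinuousLinearMap.ext fun v => ?_
    show y (j (p (i v))) = j (p (i (y v)))
    rw [← hj, ← hi, ← apply_mul, hcomm y hy, apply_mul]
  have i1 : ∀ (y : H →L[ℂ] H) (v : H), diagOp y (inc₁ v) = inc₁ (y v) := fun y v => by
    simp [diagOp, c11, c21]
  have i2 : ∀ (y : H →L[ℂ] H) (v : H), diagOp y (inc₂ v) = inc₂ (y v) := fun y v => by
    simp [diagOp, c12, c22]
  have j1 : ∀ (y : H →L[ℂ] H) (v : Two H), prj₁ (diagOp y v) = y (prj₁ v) := fun y v => by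
    simp [diagOp, c11, c12]
  have j2 : ∀ (y : H →L[ℂ] H) (v : Two H), prj₂ (diagOp y v) = y (prj₂ v) := fun y v => by
    simp [diagOp, c21, c22]
  have hA := entry inc₁ prj₁ i1 j1
  have hC := entry inc₁ prj₂ i1 j2
  have hD := entry inc₂ prj₂ i2 j2
  set A := prj₁.comp (p.comp inc₁) with hAdef
  set C := prj₂.comp (p.comp inc₁) with hCdef
  set D := prj₂.comp (p.comp inc₂) with hDdef
  have star_pair : ∀ (X : H →L[ℂ] H), X ∈ M → ⟪η, X ξ⟫_ℂ = -⟪ξ, X η⟫_ℂ := by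
    intro X hX
    have sa : ∀ Z ∈ M, IsSelfAdjoint Z → ⟪η, Z ξ⟫_ℂ = -⟪ξ, Z η⟫_ℂ := by
      intro Z hZ hs
      have e : ⟪ξ, Z η⟫_ℂ = conj ⟪η, Z ξ⟫_ℂ := by
        rw [inner_conj_symm, inner_proj hs]
      rw [e]
      have := h1 Z hZ hs
      generalize ⟪η, Z ξ⟫_ℂ = w at *
      apply Complex.ext <;> simp [this]
    have hr : (realPart X : H →L[ℂ] H) ∈ M := by
      rw [realPart_apply_coe]
      exact smul_mem_vn _ (add_mem hX (star_mem hX))
    have hi : (imaginaryPart X : H →L[ℂ] H) ∈ M := by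
      rw [imaginaryPart_apply_coe]
      exact smul_mem_vn _ (smul_mem_vn _ (sub_mem hX (star_mem hX)))
    rw [← realPart_add_I_smul_imaginaryPart X]
    simp only [add_apply, smul_apply, inner_add_right, inner_smul_right, sa _ hr (realPart X).2,
      sa _ hi (imaginaryPart X).2]
    ring
  have fix : p (inc₁ ξ + inc₂ η) = inc₁ ξ + inc₂ η :=
    cl_fix ⟨1, one_mem _, by simp⟩
  have kill : p (inc₁ η - inc₂ ξ) = 0 := by
    refine Submodule.starProjection_apply_eq_zero_iff _ |>.2 ?_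
    rw [Submodule.orthogonal_closure]
    intro v ⟨y, hy, hv⟩
    have key : ∀ z ∈ M.commutant, IsSelfAdjoint z → ⟪z ξ, η⟫_ℂ = ⟪z η, ξ⟫_ℂ := by
      intro z hz hs
      rw [inner_proj hs η ξ, ← inner_conj_symm (z ξ) η]
      exact Complex.conj_eq_iff_im.2 (h2 z hz hs)
    have hr : (realPart y : H →L[ℂ] H) ∈ M.commutant := by
      rw [realPart_apply_coe]
      exact smul_mem_vn _ (add_mem hy (star_mem hy))
    have hi : (imaginaryPart y : H →L[ℂ] H) ∈ M.commutant := by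
      rw [imaginaryPart_apply_coe]
      exact smul_mem_vn _ (smul_mem_vn _ (sub_mem hy (star_mem hy)))
    have e : ⟪y ξ, η⟫_ℂ = ⟪y η, ξ⟫_ℂ := by
      rw [← realPart_add_I_smul_imaginaryPart y]
      simp only [add_apply, smul_apply, inner_add_left, inner_smul_left,
        key _ hr (realPart y).2, key _ hi (imaginaryPart y).2]
    rw [hv, inner_add_left, a1, a2]
    simp [c11, c12, c21, c22, e]
  have e1 : A ξ + prj₁ (p (inc₂ η)) = ξ := by
    have := congrArg prj₁ fix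
    simpa [map_add, c11, c12, A] using this
  have e2 : C ξ + D η = η := by
    have := congrArg prj₂ fix
    simpa [map_add, c21, c22, C, D] using this
  have e3 : C η = D ξ := by
    have := congrArg prj₂ kill
    rw [map_sub, map_sub, map_zero, sub_eq_zero] at this
    exact this
  have hCx : ⟪η, C ξ⟫_ℂ = ⟪ξ, ξ⟫_ℂ - ⟪A ξ, ξ⟫_ℂ := by
    have e : ⟪η, C ξ⟫_ℂ = ⟪prj₁ (p (inc₂ η)), ξ⟫_ℂ := by
      show ⟪η, prj₂ (p (inc₁ ξ))⟫_ℂ = _
      rw [← a2, ← psym, ← inner_conj_symm (p (inc₂ η)), a1, inner_conj_symm]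
    rw [e, eq_sub_of_add_eq' e1, inner_sub_left]
  have hq : ∀ u : Two H, ⟪u, p u⟫_ℂ = ((‖p u‖ ^ 2 : ℝ) : ℂ) := fun u => by
    conv_lhs => rw [← hpi u, ← psym, inner_self_eq_norm_sq_to_K]
    simp
  have hle : ‖p (inc₁ ξ)‖ ^ 2 ≤ ‖ξ‖ ^ 2 := by
    have h0 := hq (inc₁ ξ)
    rw [a1] at h0
    have h3 : ‖p (inc₁ ξ)‖ ≤ ‖inc₁ ξ‖ := W.topologicalClosure.norm_starProjection_apply_le _
    have h4 : ‖inc₁ ξ‖ ^ 2 = ‖ξ‖ ^ 2 := by
      have := a1 ξ (inc₁ ξ)
      rw [c11, inner_self_eq_norm_sq_to_K, inner_self_eq_norm_sq_to_K] at this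
      exact_mod_cast this
    nlinarith [norm_nonneg (p (inc₁ ξ)), norm_nonneg (inc₁ ξ)]
  have hD0 : p (inc₂ ξ) = 0 := by
    have h5 := star_pair C hC
    rw [hCx, e3] at h5
    have hA' : ⟪A ξ, ξ⟫_ℂ = ((‖p (inc₁ ξ)‖ ^ 2 : ℝ) : ℂ) := by
      show ⟪prj₁ (p (inc₁ ξ)), ξ⟫_ℂ = _
      rw [← inner_conj_symm, ← a1, hq, Complex.conj_ofReal]
    have hD' : ⟪ξ, D ξ⟫_ℂ = ((‖p (inc₂ ξ)‖ ^ 2 : ℝ) : ℂ) := by
      show ⟪ξ, prj₂ (p (inc₂ ξ))⟫_ℂ = _
      rw [← a2, hq]
    rw [hA', hD', inner_self_eq_norm_sq_to_K] at h5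
    have h6 : ‖ξ‖ ^ 2 - ‖p (inc₁ ξ)‖ ^ 2 = -(‖p (inc₂ ξ)‖ ^ 2) := by
      have := congrArg Complex.re h5
      simpa [← Complex.ofReal_pow] using this
    exact norm_eq_zero.1 (pow_eq_zero_iff two_ne_zero |>.1
      (le_antisymm (by linarith) (sq_nonneg _)))
  have hD00 : D = 0 := h.separating D hD (by
    show prj₂ (p (inc₂ ξ)) = 0
    rw [hD0, map_zero])
  have hp2 : ∀ v : H, p (inc₂ v) = 0 := by
    intro v
    have := hq (inc₂ v)
    rw [a2, show prj₂ (p (inc₂ v)) = D v from rfl, hD00, zero_apply, inner_zero_right] at this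
    exact norm_eq_zero.1 (pow_eq_zero_iff two_ne_zero |>.1 (by exact_mod_cast this.symm))
  have hC0 : ∀ v : H, C v = 0 := fun v => ext_inner_left ℂ fun u => by
    show ⟪u, prj₂ (p (inc₁ v))⟫_ℂ = _
    rw [← a2, ← psym, hp2, inner_zero_left, inner_zero_right]
  rw [← e2, hC0, hD00]
  simp

end Vale.Agent.P132.Tomita
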