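import Vale.Agent.P132.Tomita.Polar
import Vale.Agent.P104.Discrete.Weak

/-!
P132, Tomita: the linear Radon-Nikodym lemma and the operator equation it gives.
-/

open scoped InnerProductSpace ComplexConjugate Topology
open Vale.Agent.P104.Continuous Filter
open Vale.Agent.P104.Discrete (TendsWeak exists_tendsWeak mem_of_tendsWeak)

namespace Vale.Agent.P132.Tomita

universe u

attribute [local instance] InnerProductSpace.complexToReal

variable {H : Type u} [NormedAddCommGroup H] [InnerProductSpace ℂ H] [CompleteSpace H]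
variable {M : VonNeumannAlgebra H} {ξ : H}

theorem ext_inner_pair (L : H →L[ℂ] H) (h : ∀ u w, ⟪u, L w⟫_ℂ = conj ⟪w, L u⟫_ℂ) :
    IsSelfAdjoint L := by
  refine (ContinuousLinearMap.isSelfAdjoint_iff_isSymmetric).2 fun u w => ?_
  show ⟪L u, w⟫_ℂ = ⟪u, L w⟫_ℂ
  rw [h u w, inner_conj_symm]

/-- Operators are equal if they agree on self-adjoint vectors of the commutant. -/
theorem ext_of_commutant (hM : CycSep M ξ) {A B : H →L[ℂ] H}
    (e : ∀ v w, v ∈ M.commutant → IsSelfAdjoint v → w ∈ M.commutant → IsSelfAdjoint w →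
      ⟪v ξ, A (w ξ)⟫_ℂ = ⟪v ξ, B (w ξ)⟫_ℂ) : A = B := by
  have split : ∀ y ∈ M.commutant, ∃ a b, a ∈ M.commutant ∧ IsSelfAdjoint a ∧ b ∈ M.commutant ∧
      IsSelfAdjoint b ∧ y = a + Complex.I • b := by
    intro y hy
    refine ⟨realPart y, imaginaryPart y, ?_, (realPart y).2, ?_, (imaginaryPart y).2,
      (realPart_add_I_smul_imaginaryPart y).symm⟩
    · rw [realPart_apply_coe]
      exact smul_mem_vn _ (add_mem hy (star_mem hy))
    · rw [imaginaryPart_apply_coe]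
      exact smul_mem_vn _ (smul_mem_vn _ (sub_mem hy (star_mem hy)))
  have full : ∀ y ∈ M.commutant, ∀ z ∈ M.commutant, ⟪y ξ, A (z ξ)⟫_ℂ = ⟪y ξ, B (z ξ)⟫_ℂ := by
    intro y hy z hz
    obtain ⟨a, b, ha, has, hb, hbs, rfl⟩ := split y hy
    obtain ⟨c, d, hc, hcs, hd, hds, rfl⟩ := split z hz
    simp only [add_apply, smul_apply, map_add, map_smul, inner_add_left, inner_add_right,
      inner_smul_left, inner_smul_right, e a c ha has hc hcs, e a d ha has hd hds,
      e b c hb hbs hc hcs, e b d hb hbs hd hds]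
  refine ContinuousLinearMap.ext fun w => ?_
  refine congrFun (Continuous.ext_on hM.commutant_dense A.continuous B.continuous ?_) w
  rintro _ ⟨z, hz, rfl⟩
  refine sub_eq_zero.1 (hM.commutant_dense.eq_zero_of_inner_left ℂ fun u hu => ?_)
  obtain ⟨y, hy, rfl⟩ := hu
  rw [← inner_conj_symm, inner_sub_right, full y hy z hz, sub_self, map_zero]

theorem re_inner_pK (M : VonNeumannAlgebra H) (ξ v : H) {w : H} (hw : w ∈ kS M ξ) :
    (⟪pK M ξ v, w⟫_ℂ).re = (⟪v, w⟫_ℂ).re := by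
  have := pK_orth M ξ v hw
  rw [inner_sub_left, Complex.sub_re] at this
  linarith

/-- A self-adjoint element of the commutant is dominated by the vector state. -/
theorem re_inner_le_abs {x' : H →L[ℂ] H} (hx : x' ∈ M.commutant) {r : ℝ}
    (hn : ‖x'‖ ≤ r) {g : H →L[ℂ] H} (hg : g ∈ M) (hpos : 0 ≤ g) :
    |(⟪x' ξ, g ξ⟫_ℂ).re| ≤ r * (⟪ξ, g ξ⟫_ℂ).re := by
  set q := CFC.sqrt g with hq
  have hqs : IsSelfAdjoint q := IsSelfAdjoint.of_nonneg (CFC.sqrt_nonneg g)
  have hqq : q * q = g := CFC.sqrt_mul_sqrt_self g hpos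
  have hqM : q ∈ M := by
    rw [hq, CFC.sqrt_eq_real_sqrt g hpos, cfcₙ_eq_cfc]
    exact cfc_mem_vn hg _
  have hc : q (x' ξ) = x' (q ξ) := DFunLike.congr_fun (mem_iff_comm.1 hqM x' hx).symm ξ
  have e1 : ⟪x' ξ, g ξ⟫_ℂ = ⟪x' (q ξ), q ξ⟫_ℂ := by
    rw [← hqq, apply_mul, ← inner_proj hqs, hc]
  have e2 : ⟪ξ, g ξ⟫_ℂ = ⟪q ξ, q ξ⟫_ℂ := by
    rw [← hqq, apply_mul, ← inner_proj hqs]
  rw [e1, e2, inner_self_eq_norm_sq_to_K (𝕜 := ℂ) (q ξ)]
  refine (Complex.abs_re_le_norm _).trans ((norm_inner_le_norm _ _).trans ?_)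
  have := (x'.le_of_opNorm_le hn (q ξ))
  simp [← Complex.ofReal_pow]
  nlinarith [norm_nonneg (q ξ)]

theorem re_inner_sign (hξ : ‖ξ‖ = 1) {x' : H →L[ℂ] H} (hx : x' ∈ M.commutant) {r : ℝ}
    (hr : 0 ≤ r) (hn : ‖x'‖ ≤ r) {y : H →L[ℂ] H} (hy : y ∈ M) (hys : IsSelfAdjoint y) {δ : ℝ}
    (hδ : 0 < δ) : ∃ f : H →L[ℂ] H, f ∈ M ∧ IsSelfAdjoint f ∧ ‖f‖ ≤ 1 ∧
      IsSelfAdjoint (y * f) ∧ (⟪x' ξ, y ξ⟫_ℂ).re ≤ r * ((⟪ξ, (y * f) ξ⟫_ℂ).re + δ) := by
  let c : ℝ → ℝ := fun t => max (-1) (min 1 (t / δ))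
  let g : ℝ → ℝ := fun t => t * c t + δ
  have hc : Continuous c := by fun_prop
  have hg : Continuous g := (continuous_id.mul hc).add continuous_const
  have habs : ∀ t, |t| ≤ g t := by
    intro t
    rcases le_or_gt δ t with h | h
    · have : c t = 1 := by
        simp only [c]
        rw [min_eq_left (by rwa [le_div_iff₀ hδ, one_mul]), max_eq_right (by norm_num)]
      simp only [g, this, mul_one, abs_of_nonneg (hδ.le.trans h)]; linarith
    rcases le_or_gt t (-δ) with h' | h'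
    · have : c t = -1 := by
        have ht : t / δ ≤ -1 := by rw [div_le_iff₀ hδ]; linarith
        simp only [c]
        rw [min_eq_right (by linarith), max_eq_left ht]
      simp only [g, this, abs_of_nonpos (show t ≤ 0 by linarith)]; linarith
    · have h1 : -1 < t / δ := by rw [lt_div_iff₀ hδ]; linarith
      have h2 : t / δ < 1 := by rw [div_lt_iff₀ hδ]; linarith
      have : c t = t / δ := by
        simp only [c]
        rw [min_eq_right h2.le, max_eq_right h1.le]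
      simp only [g, this, mul_div_assoc']
      have : 0 ≤ t * t / δ := div_nonneg (mul_self_nonneg t) hδ.le
      rcases abs_cases t with h | h <;> linarith [h.1, h.2]
  set f := cfc c y with hf
  have hyf : y * f = cfc (fun t => t * c t) y := by
    rw [cfc_mul (fun t => t) c y continuousOn_id hc.continuousOn, cfc_id' ℝ y hys]
  refine ⟨f, cfc_mem_vn hy _, cfc_predicate c y,
    norm_cfc_le zero_le_one fun t _ => ?_, by rw [hyf]; exact cfc_predicate _ y, ?_⟩
  · rw [Real.norm_eq_abs, abs_le]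
    exact ⟨le_max_left _ _, max_le (by norm_num) (min_le_left _ _)⟩
  let gp : ℝ → ℝ := fun t => (g t + t) / 2
  let gm : ℝ → ℝ := fun t => (g t - t) / 2
  have hgp : Continuous gp := (hg.add continuous_id).div_const 2
  have hgm : Continuous gm := (hg.sub continuous_id).div_const 2
  have hsub : y = cfc gp y - cfc gm y := by
    rw [← cfc_sub gp gm y hgp.continuousOn hgm.continuousOn]
    conv_lhs => rw [← cfc_id' ℝ y hys]
    exact cfc_congr fun t _ => by simp only [gp, gm]; ring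
  have hadd : cfc gp y + cfc gm y = y * f + algebraMap ℝ _ δ := by
    rw [← cfc_add y gp gm hgp.continuousOn hgm.continuousOn, hyf,
      ← cfc_add_const δ (fun t => t * c t) y (continuous_id.mul hc).continuousOn hys]
    exact cfc_congr fun t _ => by simp only [gp, gm, g]; ring
  have b1 := re_inner_le_abs (ξ := ξ) hx hn (cfc_mem_vn hy gp)
    (cfc_nonneg fun t _ => by simp only [gp]; linarith [habs t, neg_abs_le t])
  have b2 := re_inner_le_abs (ξ := ξ) hx hn (cfc_mem_vn hy gm)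
    (cfc_nonneg fun t _ => by simp only [gm]; linarith [habs t, le_abs_self t])
  have hval : (⟪ξ, cfc gp y ξ⟫_ℂ).re + (⟪ξ, cfc gm y ξ⟫_ℂ).re = (⟪ξ, (y * f) ξ⟫_ℂ).re + δ := by
    rw [← Complex.add_re, ← inner_add_right, ← add_apply, hadd, add_apply, inner_add_right,
      Complex.add_re, Algebra.algebraMap_eq_smul_one, smul_apply, one_apply_eq_self,
      ← Complex.coe_smul, inner_smul_right, inner_self_eq_norm_sq_to_K, hξ]
    simp
  rw [← hval]
  conv_lhs => rw [hsub]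
  rw [sub_apply, inner_sub_right, Complex.sub_re]
  nlinarith [abs_le.1 b1, abs_le.1 b2]

/-- Every real combination of the vector `x' ξ` is a `pK` of a twisted vector of `M`. -/
theorem exists_twist (M : VonNeumannAlgebra H) (hξ : ‖ξ‖ = 1) {x' : H →L[ℂ] H}
    (hx : x' ∈ M.commutant) {l : ℂ} (hl : 0 < l.re) :
    ∃ h ∈ M, IsSelfAdjoint h ∧ pK M ξ ((2 * conj l) • h ξ) = pK M ξ (x' ξ) := by
  classical
  set r := ‖x'‖ / (2 * l.re) with hr
  have hr0 : 0 ≤ r := by positivity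
  let B : Set (H →L[ℂ] H) := {h | h ∈ M ∧ IsSelfAdjoint h ∧ ‖h‖ ≤ r}
  let C : Set H := (fun h : H →L[ℂ] H => pK M ξ ((2 * conj l) • h ξ)) '' B
  have hconv : Convex ℝ C := by
    rintro _ ⟨a, ⟨ha, has, han⟩, rfl⟩ _ ⟨b, ⟨hb, hbs, hbn⟩, rfl⟩ s t hs ht hst
    refine ⟨(s : ℂ) • a + (t : ℂ) • b, ⟨add_mem (smul_mem_vn _ ha) (smul_mem_vn _ hb),
      (IsSelfAdjoint.smul (Complex.conj_ofReal s) has).add
        (IsSelfAdjoint.smul (Complex.conj_ofReal t) hbs), ?_⟩, ?_⟩
    · refine (norm_add_le _ _).trans ?_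
      rw [norm_smul, norm_smul, Complex.norm_real, Complex.norm_real, Real.norm_of_nonneg hs,
        Real.norm_of_nonneg ht]
      calc s * ‖a‖ + t * ‖b‖ ≤ s * r + t * r :=
            add_le_add (mul_le_mul_of_nonneg_left han hs) (mul_le_mul_of_nonneg_left hbn ht)
        _ = r := by rw [← add_mul, hst, one_mul]
    · simp only [add_apply, smul_apply, smul_add, map_add]
      rw [smul_comm (2 * conj l) (s : ℂ), smul_comm (2 * conj l) (t : ℂ), Complex.coe_smul,
        Complex.coe_smul, (pK M ξ).map_smul s, (pK M ξ).map_smul t]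
  have hclosed : IsClosed C := by
    refine IsSeqClosed.isClosed fun v p hv hp => ?_
    choose a ha hav using hv
    obtain ⟨L, hL⟩ := exists_tendsWeak (Ultrafilter.of (atTop : Filter ℕ)) a (fun i => (ha i).2.2)
    have hU := Ultrafilter.of_le (atTop : Filter ℕ)
    have hLs : IsSelfAdjoint L := by
      refine ext_inner_pair L fun u w => ?_
      have h1 := hL u w
      have h2 := (Complex.continuous_conj.tendsto _).comp (hL w u)
      refine tendsto_nhds_unique (h1.congr fun i => ?_) h2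
      show ⟪u, a i w⟫_ℂ = conj ⟪w, a i u⟫_ℂ
      rw [inner_conj_symm, inner_proj (ha i).2.1]
    refine ⟨L, ⟨mem_of_tendsWeak M hL fun i => (ha i).1, hLs,
      hL.norm_le hr0 (Eventually.of_forall fun i => (ha i).2.2)⟩, ?_⟩
    refine ext_inner_left ℝ fun w => ?_
    have key : ∀ A : H →L[ℂ] H, (⟪w, pK M ξ ((2 * conj l) • A ξ)⟫_ℂ).re =
        ((2 * conj l) * ⟪pK M ξ w, A ξ⟫_ℂ).re := fun A => by
      rw [← pK_symm, inner_smul_right]
    have t1 : Tendsto (fun i => ((2 * conj l) * ⟪pK M ξ w, a i ξ⟫_ℂ).re)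
        (Ultrafilter.of (atTop : Filter ℕ)) (𝓝 ((2 * conj l) * ⟪pK M ξ w, L ξ⟫_ℂ).re) :=
      (Complex.continuous_re.tendsto _).comp ((hL _ ξ).const_mul _)
    have t2 : Tendsto (fun i => (⟪w, v i⟫_ℂ).re) (Ultrafilter.of (atTop : Filter ℕ))
        (𝓝 (⟪w, p⟫_ℂ).re) :=
      ((Complex.continuous_re.comp (continuous_const.inner continuous_id)).tendsto p).comp
        (hp.mono_left hU)
    show (⟪w, pK M ξ ((2 * conj l) • L ξ)⟫_ℂ).re = (⟪w, p⟫_ℂ).re
    rw [key]
    refine tendsto_nhds_unique t1 (t2.congr fun i => ?_)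
    rw [← hav i]
    exact key _
  by_contra hno
  have hnotin : pK M ξ (x' ξ) ∉ C := fun ⟨a, ha, e⟩ => hno ⟨a, ha.1, ha.2.1, e⟩
  obtain ⟨F, u, hFC, hFp⟩ := geometric_hahn_banach_closed_point hconv hclosed hnotin
  set w := pK M ξ ((InnerProductSpace.toDual ℝ H).symm F) with hw
  have hF : ∀ v, F (pK M ξ v) = (⟪w, v⟫_ℂ).re := fun v => by
    rw [hw, pK_symm, re_inner_eq, InnerProductSpace.toDual_symm_apply]
  obtain ⟨δ, hδ, hgap⟩ : ∃ δ > 0, u + δ < F (pK M ξ (x' ξ)) :=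
    ⟨(F (pK M ξ (x' ξ)) - u) / 2, by linarith, by linarith⟩
  set K := r * ‖(2 * conj l)‖ + ‖x'‖ + 1 with hK
  have hK1 : 0 < K := by positivity
  obtain ⟨_, ⟨y, hy, hys, rfl⟩, hyw⟩ :=
    Metric.mem_closure_iff.1 (pK_mem M ξ ((InnerProductSpace.toDual ℝ H).symm F))
      (δ / (4 * K)) (by positivity)
  rw [← hw, dist_eq_norm] at hyw
  obtain ⟨f, hfM, hfs, hf1, hyfs, hineq⟩ :=
    re_inner_sign hξ hx (norm_nonneg _) le_rfl hy hys
      (show 0 < δ / (4 * (‖x'‖ + 1)) by positivity)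
  have hmem : pK M ξ ((2 * conj l) • ((r : ℂ) • f) ξ) ∈ C := by
    refine ⟨(r : ℂ) • f, ⟨smul_mem_vn _ hfM, IsSelfAdjoint.smul (Complex.conj_ofReal r) hfs, ?_⟩,
      rfl⟩
    rw [norm_smul, Complex.norm_real, Real.norm_of_nonneg hr0]
    exact mul_le_of_le_one_right hr0 hf1
  have hu := hFC _ hmem
  rw [hF] at hu hgap
  have err : ∀ v : H, |(⟪w, v⟫_ℂ).re - (⟪y ξ, v⟫_ℂ).re| ≤ δ / (4 * K) * ‖v‖ := fun v => by
    rw [← Complex.sub_re, ← inner_sub_left]
    exact (Complex.abs_re_le_norm _).trans ((norm_inner_le_norm _ _).trans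
      (mul_le_mul_of_nonneg_right hyw.le (norm_nonneg _)))
  have e1 := abs_le.1 (err (x' ξ))
  have e2 := abs_le.1 (err ((2 * conj l) • ((r : ℂ) • f) ξ))
  have hn1 : ‖x' ξ‖ ≤ K := by
    have := x'.le_opNorm ξ
    rw [hξ, mul_one] at this
    linarith [mul_nonneg hr0 (norm_nonneg (2 * conj l))]
  have hn2 : ‖(2 * conj l) • ((r : ℂ) • f) ξ‖ ≤ K := by
    have h1 := f.le_opNorm ξ
    rw [hξ, mul_one] at h1
    rw [norm_smul, smul_apply, norm_smul, Complex.norm_real, Real.norm_of_nonneg hr0]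
    have := mul_le_mul_of_nonneg_left (h1.trans hf1) (mul_nonneg (norm_nonneg (2 * conj l)) hr0)
    nlinarith [norm_nonneg x']
  have hval : (⟪y ξ, (2 * conj l) • ((r : ℂ) • f) ξ⟫_ℂ).re =
      ‖x'‖ * (⟪ξ, (y * f) ξ⟫_ℂ).re := by
    rw [inner_smul_right, smul_apply, inner_smul_right, inner_proj hys, ← apply_mul]
    have him : (⟪ξ, (y * f) ξ⟫_ℂ).im = 0 := by
      refine Complex.conj_eq_iff_im.1 ?_
      rw [inner_conj_symm, inner_proj hyfs]
    generalize ⟪ξ, (y * f) ξ⟫_ℂ = z at *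
    simp only [Complex.mul_re, Complex.mul_im, Complex.ofReal_re, Complex.ofReal_im,
      Complex.conj_re, Complex.conj_im, Complex.re_ofNat, Complex.im_ofNat, him, hr]
    field_simp
    ring
  have hd : δ / (4 * K) * K = δ / 4 := by field_simp
  have k1 : δ / (4 * K) * ‖x' ξ‖ ≤ δ / 4 :=
    (mul_le_mul_of_nonneg_left hn1 (by positivity)).trans hd.le
  have k2 : δ / (4 * K) * ‖(2 * conj l) • ((r : ℂ) • f) ξ‖ ≤ δ / 4 :=
    (mul_le_mul_of_nonneg_left hn2 (by positivity)).trans hd.le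
  have hd2 : ‖x'‖ * (δ / (4 * (‖x'‖ + 1))) ≤ δ / 4 := by
    rw [mul_div_assoc', div_le_iff₀ (by positivity)]
    nlinarith [norm_nonneg x']
  have hsym : (⟪y ξ, x' ξ⟫_ℂ).re = (⟪x' ξ, y ξ⟫_ℂ).re := by
    rw [← inner_conj_symm, Complex.conj_re]
  rw [mul_add] at hineq
  linarith [e1.1, e1.2, e2.1, e2.2]

/-- The linear Radon-Nikodym lemma, tested on all of `M`. -/
theorem exists_linear (M : VonNeumannAlgebra H) (hξ : ‖ξ‖ = 1) {x' : H →L[ℂ] H}
    (hx : x' ∈ M.commutant) (hxs : IsSelfAdjoint x') {l : ℂ} (hl : 0 < l.re) :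
    ∃ h ∈ M, IsSelfAdjoint h ∧ ∀ y ∈ M,
      ⟪x' ξ, y ξ⟫_ℂ = l * ⟪h ξ, y ξ⟫_ℂ + conj l * ⟪star y ξ, h ξ⟫_ℂ := by
  obtain ⟨h, hh, hhs, he⟩ := exists_twist M hξ hx hl
  refine ⟨h, hh, hhs, ?_⟩
  have sa : ∀ y ∈ M, IsSelfAdjoint y →
      ⟪x' ξ, y ξ⟫_ℂ = l * ⟪h ξ, y ξ⟫_ℂ + conj l * ⟪star y ξ, h ξ⟫_ℂ := by
    intro y hy hys
    have hk := mem_kS M ξ hy hys
    have e1 := re_inner_pK M ξ (x' ξ) hk
    rw [← he, re_inner_pK M ξ _ hk, inner_smul_left] at e1
    have e2 := im_inner_kS M ξ hx hxs hk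
    rw [hys.star_eq, ← inner_conj_symm (y ξ) (h ξ)]
    generalize ⟪h ξ, y ξ⟫_ℂ = z at *
    apply Complex.ext
    · rw [← e1]
      simp [Complex.mul_re]
      ring
    · rw [e2]
      simp [Complex.mul_im]
      ring
  intro y hy
  have hr : (realPart y : H →L[ℂ] H) ∈ M := by
    rw [realPart_apply_coe]
    exact smul_mem_vn _ (add_mem hy (star_mem hy))
  have hi : (imaginaryPart y : H →L[ℂ] H) ∈ M := by
    rw [imaginaryPart_apply_coe]
    exact smul_mem_vn _ (smul_mem_vn _ (sub_mem hy (star_mem hy)))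
  have k1 := sa _ hr (realPart y).2
  have k2 := sa _ hi (imaginaryPart y).2
  rw [(realPart y).2.star_eq] at k1
  rw [(imaginaryPart y).2.star_eq] at k2
  rw [← realPart_add_I_smul_imaginaryPart y]
  simp only [star_add, star_smul, (realPart y).2.star_eq, (imaginaryPart y).2.star_eq, add_apply,
    smul_apply, inner_add_left, inner_add_right, inner_smul_left, inner_smul_right, k1, k2]
  simp
  ring

/-- Exact vectors: for `v` self-adjoint in the commutant, `R (v ξ)` comes from `M`. -/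
theorem exists_exact (M : VonNeumannAlgebra H) (hξ : ‖ξ‖ = 1) {v : H →L[ℂ] H}
    (hv : v ∈ M.commutant) (hvs : IsSelfAdjoint v) :
    ∃ a ∈ M, IsSelfAdjoint a ∧ opR M ξ (v ξ) = a ξ ∧ opD M ξ (v ξ) = a ξ ∧
      ∀ X ∈ M, 2 * ⟪v ξ, X ξ⟫_ℂ = ⟪a ξ, X ξ⟫_ℂ + ⟪star X ξ, a ξ⟫_ℂ := by
  obtain ⟨a, ha, has, hl⟩ := exists_linear M hξ hv hvs (l := (1 / 2 : ℂ)) (by norm_num)
  have hq : qK M ξ (v ξ) = 0 := by
    have h0 : pK M ξ ((-Complex.I) • v ξ) = 0 := by
      have horth : ∀ w ∈ kS M ξ, (⟪(-Complex.I) • v ξ, w⟫_ℂ).re = 0 := fun w hw => by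
        have := im_inner_kS M ξ hv hvs hw
        rw [inner_smul_left]
        simp [this]
      have b := pK_orth M ξ ((-Complex.I) • v ξ) (pK_mem M ξ ((-Complex.I) • v ξ))
      rw [inner_sub_left, Complex.sub_re, horth _ (pK_mem M ξ _), zero_sub, neg_eq_zero,
        inner_self_eq_norm_sq_to_K] at b
      simpa [← Complex.ofReal_pow] using b
    rw [qK, h0, smul_zero]
  have hp : pK M ξ (v ξ) = a ξ := by
    have hc : IsClosed {w : H | (⟪v ξ - a ξ, w⟫_ℂ).re = 0} :=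
      isClosed_eq (Complex.continuous_re.comp (continuous_const.inner continuous_id))
        continuous_const
    have horth : ∀ w ∈ kS M ξ, (⟪v ξ - a ξ, w⟫_ℂ).re = 0 := fun w hw => by
      refine closure_minimal ?_ hc hw
      rintro _ ⟨y, hy, hys, rfl⟩
      show (⟪v ξ - a ξ, y ξ⟫_ℂ).re = 0
      rw [inner_sub_left, hl y hy, hys.star_eq, ← inner_conj_symm (y ξ) (a ξ)]
      generalize ⟪a ξ, y ξ⟫_ℂ = z at *
      simp [Complex.mul_re]
      ring
    have hz : pK M ξ (v ξ) - a ξ = 0 := by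
      have hm : pK M ξ (v ξ) - a ξ ∈ kS M ξ :=
        sub_mem (pK_mem M ξ _) (mem_kS M ξ ha has)
      have b1 := pK_orth M ξ (v ξ) hm
      have b2 := horth _ hm
      have : (⟪pK M ξ (v ξ) - a ξ, pK M ξ (v ξ) - a ξ⟫_ℂ).re = 0 := by
        simp only [inner_sub_left, Complex.sub_re] at b1 b2 ⊢
        linarith
      rw [inner_self_eq_norm_sq_to_K] at this
      simpa [← Complex.ofReal_pow] using this
    exact sub_eq_zero.1 hz
  refine ⟨a, ha, has, by rw [opR_apply, hp, hq, add_zero], by rw [opD_apply, hp, hq, sub_zero],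
    fun X hX => ?_⟩
  rw [hl X hX]
  simp [map_ofNat]
  ring

/-- The operator equation: `T J x' J T = l (2 - R) h R + conj l R h (2 - R)`, tested on
self-adjoint vectors of the commutant. -/
theorem exists_sylvester (hM : CycSep M ξ) (hξ : ‖ξ‖ = 1) {x' : H →L[ℂ] H}
    (hx : x' ∈ M.commutant) (hxs : IsSelfAdjoint x') {l : ℂ} (hl : 0 < l.re) :
    ∃ h ∈ M, IsSelfAdjoint h ∧
      tK M ξ * conjBy hM.modJ x' * tK M ξ =
        l • ((2 - opR M ξ) * h * opR M ξ) + conj l • (opR M ξ * h * (2 - opR M ξ)) := by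
  obtain ⟨h, hh, hhs, hlin⟩ := exists_linear M hξ hx hxs hl
  refine ⟨h, hh, hhs, ?_⟩
  set A := tK M ξ * conjBy hM.modJ x' * tK M ξ with hA
  set B := l • ((2 - opR M ξ) * h * opR M ξ) + conj l • (opR M ξ * h * (2 - opR M ξ)) with hB
  have jinner : ∀ u v : H, ⟪u, hM.modJ v⟫_ℂ = conj ⟪hM.modJ u, v⟫_ℂ := by
    intro u v
    have e : ∀ a b : H, ⟪hM.modJ a, hM.modJ b⟫_ℂ = conj ⟪a, b⟫_ℂ := fun a b => by
      have key : ∀ c d : H, (⟪hM.modJ c, hM.modJ d⟫_ℂ).re = (⟪c, d⟫_ℂ).re := fun c d => by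
        have h1 := @norm_add_sq ℂ H _ _ _ c d
        have h2 := @norm_add_sq ℂ H _ _ _ (hM.modJ c) (hM.modJ d)
        rw [← map_add, LinearIsometryEquiv.norm_map, LinearIsometryEquiv.norm_map,
          LinearIsometryEquiv.norm_map, RCLike.re_eq_complex_re] at h2
        rw [RCLike.re_eq_complex_re] at h1
        linarith
      apply Complex.ext
      · rw [key, Complex.conj_re]
      · have := key (Complex.I • a) b
        rw [LinearIsometryEquiv.map_smulₛₗ, inner_smul_left, inner_smul_left] at this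
        simp at this
        rw [Complex.conj_im]
        linarith
    have := e (hM.modJ u) v
    rwa [show hM.modJ (hM.modJ u) = u from hM.jMap_jMap u] at this
  have main : ∀ v w, v ∈ M.commutant → IsSelfAdjoint v → w ∈ M.commutant → IsSelfAdjoint w →
      ⟪v ξ, A (w ξ)⟫_ℂ = ⟪v ξ, B (w ξ)⟫_ℂ := by
    intro v w hv hvs hw hws
    obtain ⟨a, ha, has, haR, haD, haX⟩ := exists_exact M hξ hv hvs
    obtain ⟨b, hb, hbs, hbR, hbD, hbX⟩ := exists_exact M hξ hw hws
    have hlhs : ⟪v ξ, A (w ξ)⟫_ℂ = ⟪x' (b ξ), a ξ⟫_ℂ := by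
      rw [hA, apply_mul, apply_mul, ← inner_proj (tK_selfAdjoint M ξ)]
      show ⟪_, hM.modJ (x' (hM.modJ (tK M ξ (w ξ))))⟫_ℂ = _
      rw [jinner, hM.modJ_apply, hM.modJ_apply, hM.jMap_T, hM.jMap_T, haD, hbD, inner_conj_symm]
    have hlin' : ⟪x' (b ξ), a ξ⟫_ℂ = l * ⟪b (h ξ), a ξ⟫_ℂ + conj l * ⟪b ξ, a (h ξ)⟫_ℂ := by
      have e := hlin (b * a) (mul_mem hb ha)
      rw [star_mul, has.star_eq, hbs.star_eq, apply_mul, apply_mul] at e
      rw [← inner_proj hbs (x' ξ), show b (x' ξ) = x' (b ξ) from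
        DFunLike.congr_fun (mem_iff_comm.1 hb x' hx).symm ξ, ← inner_proj hbs (h ξ),
        inner_proj has (b ξ) (h ξ)] at e
      exact e
    have t1 : ⟪v ξ, ((2 - opR M ξ) * h * opR M ξ) (w ξ)⟫_ℂ = ⟪b (h ξ), a ξ⟫_ℂ := by
      rw [apply_mul, apply_mul, hbR, sub_apply, two_apply, inner_sub_right, inner_smul_right,
        ← inner_proj (opR_selfAdjoint M ξ), haR]
      have e := haX (h * b) (mul_mem hh hb)
      rw [star_mul, hhs.star_eq, hbs.star_eq, apply_mul, apply_mul] at e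
      rw [e]
      ring
    have t2 : ⟪v ξ, (opR M ξ * h * (2 - opR M ξ)) (w ξ)⟫_ℂ = ⟪b ξ, a (h ξ)⟫_ℂ := by
      rw [apply_mul, apply_mul, ← inner_proj (opR_selfAdjoint M ξ), haR, sub_apply, two_apply,
        hbR, map_sub, map_smul, inner_sub_right, inner_smul_right, ← inner_proj hhs,
        ← inner_proj hhs (a ξ) (b ξ)]
      have e := hbX (h * a) (mul_mem hh ha)
      rw [star_mul, hhs.star_eq, has.star_eq, apply_mul, apply_mul] at e
      rw [← inner_conj_symm (h (a ξ)) (w ξ), ← inner_conj_symm (h (a ξ)) (b ξ)]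
      have e' := congrArg conj e
      rw [map_mul, map_add, map_ofNat, inner_conj_symm (b ξ) (a (h ξ))] at e'
      rw [e']
      ring
    rw [hlhs, hlin', hB, add_apply, smul_apply, smul_apply, inner_add_right, inner_smul_right,
      inner_smul_right, t1, t2]
  refine ext_of_commutant hM fun v w hv hvs hw hws => main v w hv hvs hw hws

end Vale.Agent.P132.Tomita
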