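import Vale.Agent.P132.Tomita.Cutoff
import Vale.Agent.P132.Tomita.Linear
import Vale.Agent.P132.Tomita.Dual
import Vale.Agent.P132.Tomita.Contour

/-!
P132, Tomita: Tomita's theorem.
-/

open scoped InnerProductSpace ComplexConjugate Topology
open Vale.Agent.P104.Continuous Filter MeasureTheory

namespace Vale.Agent.P132.Tomita

universe u

attribute [local instance] InnerProductSpace.complexToReal

variable {H : Type u} [NormedAddCommGroup H] [InnerProductSpace ℂ H] [CompleteSpace H]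
variable {M : VonNeumannAlgebra H} {ξ : H}

theorem CycSep.inner_modU (h : CycSep M ξ) (t : ℝ) (u v : H) :
    ⟪modU M ξ t u, v⟫_ℂ = ⟪u, modU M ξ (-t) v⟫_ℂ := by
  rw [← h.star_modU, ContinuousLinearMap.star_eq_adjoint,
    ContinuousLinearMap.adjoint_inner_right]

theorem continuous_pair (h : CycSep M ξ) (Y : H →L[ℂ] H) (u v : H) :
    Continuous fun t => ⟪modU M ξ (-t) u, Y (modU M ξ (-t) v)⟫_ℂ :=
  ((h.modU_cont u).comp continuous_neg).inner
    (Y.continuous.comp ((h.modU_cont v).comp continuous_neg))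

theorem norm_pair_le (h : CycSep M ξ) (Y : H →L[ℂ] H) (u v : H) (t : ℝ) :
    ‖⟪modU M ξ (-t) u, Y (modU M ξ (-t) v)⟫_ℂ‖ ≤ ‖u‖ * (‖Y‖ * ‖v‖) := by
  refine (norm_inner_le_norm _ _).trans ?_
  rw [h.norm_modU]
  refine mul_le_mul_of_nonneg_left ?_ (norm_nonneg _)
  have := Y.le_opNorm (modU M ξ (-t) v)
  rwa [h.norm_modU] at this

/-- A solution of the operator equation is an integral of the orbit of `J x' J`. -/
theorem integral_formula (h : CycSep M ξ) {Y a : H →L[ℂ] H} {φ : ℝ} (hφ : |φ| < Real.pi)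
    (heq : tK M ξ * Y * tK M ξ =
      Complex.exp ((φ / 2 : ℝ) * Complex.I) • ((2 - opR M ξ) * a * opR M ξ) +
        conj (Complex.exp ((φ / 2 : ℝ) * Complex.I)) • (opR M ξ * a * (2 - opR M ξ)))
    (u v : H) :
    ∫ t : ℝ, (wgt φ t : ℂ) * ⟪modU M ξ (-t) u, Y (modU M ξ (-t) v)⟫_ℂ = ⟪u, a v⟫_ℂ := by
  set l := Complex.exp ((φ / 2 : ℝ) * Complex.I) with hl
  have hint : ∀ u v, Integrable fun t : ℝ =>
      (wgt φ t : ℂ) * ⟪modU M ξ (-t) u, Y (modU M ξ (-t) v)⟫_ℂ := fun u v =>
    integrable_wgt_mul hφ (continuous_pair h Y u v) (norm_pair_le h Y u v)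
  have hbd : ∀ u v, ‖∫ t : ℝ, (wgt φ t : ℂ) * ⟪modU M ξ (-t) u, Y (modU M ξ (-t) v)⟫_ℂ‖ ≤
      ‖u‖ * (‖Y‖ * ‖v‖) * ∫ t : ℝ, Real.exp (-((Real.pi - |φ|) * |t|)) := by
    intro u v
    refine (norm_integral_le_integral_norm _).trans ?_
    rw [← integral_const_mul]
    refine integral_mono (hint u v).norm
      ((integrable_exp_neg_abs (sub_pos.2 hφ)).const_mul _) fun t => ?_
    rw [norm_mul, Complex.norm_real, Real.norm_of_nonneg (wgt_nonneg _ _)]
    rw [mul_comm (‖u‖ * (‖Y‖ * ‖v‖))]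
    exact mul_le_mul (wgt_le φ t) (norm_pair_le h Y u v t) (norm_nonneg _) (Real.exp_pos _).le
  have hcut : ∀ u v, (∃ δ g w, IsCut δ g ∧ u = tK M ξ (fR M ξ g w)) →
      (∃ δ g w, IsCut δ g ∧ v = tK M ξ (fR M ξ g w)) →
      ∫ t : ℝ, (wgt φ t : ℂ) * ⟪modU M ξ (-t) u, Y (modU M ξ (-t) v)⟫_ℂ = ⟪u, a v⟫_ℂ := by
    rintro u v ⟨δ₁, g₁, w₁, hg₁, rfl⟩ ⟨δ₂, g₂, w₂, hg₂, rfl⟩
    set δ := min δ₁ δ₂ with hδ
    have hδ0 : 0 < δ := lt_min hg₁.pos hg₂.pos
    have G₁ := hg₁.mono hδ0 (min_le_left _ _)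
    have G₂ := hg₂.mono hδ0 (min_le_right _ _)
    let F : ℂ → ℂ := fun z => ⟪tK M ξ (fR M ξ g₁ w₁),
      (expK M ξ δ (Complex.I * z) * a * expK M ξ δ (-(Complex.I * z))) (tK M ξ (fR M ξ g₂ w₂))⟫_ℂ
    have hFd : Differentiable ℂ F := by
      have h1 : Differentiable ℂ fun z => expK M ξ δ (Complex.I * z) :=
        (differentiable_expK M ξ δ).comp (differentiable_id.const_mul Complex.I)
      have h2 : Differentiable ℂ fun z => expK M ξ δ (-(Complex.I * z)) :=
        (differentiable_expK M ξ δ).comp (differentiable_id.const_mul Complex.I).neg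
      exact ((innerSL ℂ (tK M ξ (fR M ξ g₁ w₁))).comp
        (ContinuousLinearMap.apply ℂ H (tK M ξ (fR M ξ g₂ w₂)))).differentiable.comp
          ((h1.mul_const a).mul h2)
    set B := ‖tK M ξ (fR M ξ g₁ w₁)‖ * (Real.exp (‖fR M ξ (kap δ)‖ / 2) * ‖a‖ *
      Real.exp (‖fR M ξ (kap δ)‖ / 2) * ‖tK M ξ (fR M ξ g₂ w₂)‖) with hB
    have hFb : ∀ z : ℂ, |z.im| ≤ 1 / 2 → ‖F z‖ ≤ B := by
      intro z hz
      refine (norm_inner_le_norm _ _).trans (mul_le_mul_of_nonneg_left ?_ (norm_nonneg _))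
      refine ContinuousLinearMap.le_of_opNorm_le _ ?_ _
      refine (norm_mul_le _ _).trans (mul_le_mul ((norm_mul_le _ _).trans
        (mul_le_mul_of_nonneg_right (norm_expK_strip M ξ hδ0 hz) (norm_nonneg _))) ?_
          (norm_nonneg _) (by positivity))
      rw [show -(Complex.I * z) = Complex.I * (-z) by ring]
      exact norm_expK_strip M ξ hδ0 (by rwa [Complex.neg_im, abs_neg])
    have hF0 : F 0 = ⟪tK M ξ (fR M ξ g₁ w₁), a (tK M ξ (fR M ξ g₂ w₂))⟫_ℂ := by
      simp [F, expK_zero]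
    rw [← hF0, ← contour hFd hFb hφ]
    refine integral_congr_ae (Eventually.of_forall fun t => ?_)
    show (wgt φ t : ℂ) * _ = (wgt φ t : ℂ) * _
    congr 1
    set p := expK M ξ δ (Complex.I * ((-t : ℝ) : ℂ)) w₁ with hp
    set q := expK M ξ δ (Complex.I * ((-t : ℝ) : ℂ)) w₂ with hq
    have move : ∀ (c : ℂ) (g : ℝ → ℝ) (w : H),
        expK M ξ δ c (tK M ξ (fR M ξ g w)) = tK M ξ (fR M ξ g (expK M ξ δ c w)) := by
      intro c g w
      have e1 := DFunLike.congr_fun (expK_commute M ξ δ c fT).eq (fR M ξ g w)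
      have e2 := DFunLike.congr_fun (expK_commute M ξ δ c g).eq w
      rw [apply_mul, apply_mul] at e1 e2
      rw [tK_eq, e1, e2]
    rw [← G₁.exp_it h, ← G₂.exp_it h, move, move, ← hp, ← hq]
    have hsum : ⟪tK M ξ (fR M ξ g₁ p), Y (tK M ξ (fR M ξ g₂ q))⟫_ℂ =
        l * ⟪(2 : ℂ) • fR M ξ g₁ p - opR M ξ (fR M ξ g₁ p), a (opR M ξ (fR M ξ g₂ q))⟫_ℂ +
          conj l * ⟪opR M ξ (fR M ξ g₁ p),
            a ((2 : ℂ) • fR M ξ g₂ q - opR M ξ (fR M ξ g₂ q))⟫_ℂ := by
      have e := congrArg (fun T : H →L[ℂ] H => ⟪fR M ξ g₁ p, T (fR M ξ g₂ q)⟫_ℂ) heq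
      simp only [apply_mul, add_apply, smul_apply, sub_apply, two_apply, inner_add_right,
        inner_smul_right] at e
      rw [inner_proj (tK_selfAdjoint M ξ), e]
      congr 1
      · congr 1
        rw [inner_sub_left, inner_sub_right, inner_smul_left, inner_smul_right,
          inner_proj (opR_selfAdjoint M ξ)]
        simp [map_ofNat]
      · congr 1
        rw [← inner_proj (opR_selfAdjoint M ξ)]
    rw [hsum, ← (G₁.exp_half p).1, ← (G₂.exp_half q).1, ← (G₁.exp_half p).2, ← (G₂.exp_half q).2,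
      hp, hq, ← move, ← move]
    have shift : ∀ (s : ℝ) (b : ℂ), b = (s : ℂ) →
        ⟪expK M ξ δ b (expK M ξ δ (Complex.I * ((-t : ℝ) : ℂ)) (tK M ξ (fR M ξ g₁ w₁))),
          a (expK M ξ δ (-b) (expK M ξ δ (Complex.I * ((-t : ℝ) : ℂ))
            (tK M ξ (fR M ξ g₂ w₂))))⟫_ℂ = F (t + ((-s : ℝ) : ℂ) * Complex.I) := by
      rintro s b rfl
      show _ = ⟪_, _⟫_ℂ
      rw [← apply_mul (expK M ξ δ _) (expK M ξ δ _), ← expK_add,
        ← apply_mul (expK M ξ δ _) (expK M ξ δ _), ← expK_add]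
      rw [← ContinuousLinearMap.adjoint_inner_right, ← ContinuousLinearMap.star_eq_adjoint,
        star_expK, apply_mul, apply_mul]
      simp only [map_add, map_mul, Complex.conj_I, Complex.conj_ofReal]
      congr 3
      · push_cast
        linear_combination (s : ℂ) * Complex.I_mul_I
      · congr 2
        push_cast
        linear_combination -(s : ℂ) * Complex.I_mul_I
    have f1 := shift (1 / 2) ((1 / 2 : ℝ) : ℂ) rfl
    have f2 := shift (-1 / 2) ((-1 / 2 : ℝ) : ℂ) rfl
    rw [← Complex.ofReal_neg, show -(1 / 2 : ℝ) = -1 / 2 by ring] at f1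
    rw [← Complex.ofReal_neg, show -(-1 / 2 : ℝ) = 1 / 2 by ring] at f2
    rw [f1, f2]
  have hC : ∃ C : ℝ, ∀ u v, ‖(∫ t : ℝ, (wgt φ t : ℂ) *
      ⟪modU M ξ (-t) u, Y (modU M ξ (-t) v)⟫_ℂ) - ⟪u, a v⟫_ℂ‖ ≤ C * ‖u‖ * ‖v‖ := by
    refine ⟨‖Y‖ * (∫ t : ℝ, Real.exp (-((Real.pi - |φ|) * |t|))) + ‖a‖, fun u v => ?_⟩
    refine (norm_sub_le _ _).trans ((add_le_add (hbd u v) ((norm_inner_le_norm u (a v)).trans
      (mul_le_mul_of_nonneg_left (a.le_opNorm v) (norm_nonneg u)))).trans_eq ?_)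
    ring
  obtain ⟨C, hC⟩ := hC
  let Φ : H →L⋆[ℂ] H →L[ℂ] ℂ :=
    LinearMap.mkContinuous₂ (LinearMap.mk₂'ₛₗ (starRingEnd ℂ) (RingHom.id ℂ)
      (fun u v => (∫ t : ℝ, (wgt φ t : ℂ) * ⟪modU M ξ (-t) u, Y (modU M ξ (-t) v)⟫_ℂ) -
        ⟪u, a v⟫_ℂ)
      (fun u u' v => by
        simp only [map_add, inner_add_left, mul_add]
        rw [integral_add (hint u v) (hint u' v)]
        ring)
      (fun c u v => by
        simp only [map_smul, inner_smul_left, mul_left_comm _ (conj c), smul_eq_mul]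
        rw [integral_const_mul]
        ring)
      (fun u v v' => by
        simp only [map_add, inner_add_right, mul_add]
        rw [integral_add (hint u v) (hint u v')]
        ring)
      (fun c u v => by
        simp only [map_smul, inner_smul_right, RingHom.id_apply, mul_left_comm _ c, smul_eq_mul]
        rw [integral_const_mul]
        ring)) C hC
  have hzero : ∀ u v, Φ u v = 0 := by
    have h1 : ∀ u, (∃ δ g w, IsCut δ g ∧ u = tK M ξ (fR M ξ g w)) → Φ u = 0 := by
      intro u hu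
      refine ContinuousLinearMap.ext fun v => ?_
      refine congrFun (Continuous.ext_on h.dense_cut (Φ u).continuous continuous_const
        fun v hv => ?_) v
      exact sub_eq_zero.2 (hcut u v hu hv)
    intro u v
    have : Φ u = 0 := congrFun (Continuous.ext_on h.dense_cut Φ.continuous continuous_const
      (g := fun _ => 0) fun u hu => h1 u hu) u
    rw [this]
    rfl
  exact sub_eq_zero.1 (hzero u v)

/-- Half of Tomita's theorem. -/
theorem CycSep.orbit_mem_sa (h : CycSep M ξ) (hξ : ‖ξ‖ = 1) {x' : H →L[ℂ] H}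
    (hx : x' ∈ M.commutant) (hxs : IsSelfAdjoint x') (s : ℝ) :
    modU M ξ s * conjBy h.modJ x' * modU M ξ (-s) ∈ M := by
  refine mem_iff_comm.2 fun y hy => ?_
  set Y := conjBy h.modJ x' with hY
  refine (ContinuousLinearMap.ext fun v => ext_inner_left ℂ fun u => ?_)
  let f : ℝ → ℂ := fun t => ⟪modU M ξ (-t) (star y u), Y (modU M ξ (-t) v)⟫_ℂ -
    ⟪modU M ξ (-t) u, Y (modU M ξ (-t) (y v))⟫_ℂ
  have hf : Continuous f := (continuous_pair h Y _ v).sub (continuous_pair h Y u _)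
  have hb : ∀ t, ‖f t‖ ≤ ‖star y u‖ * (‖Y‖ * ‖v‖) + ‖u‖ * (‖Y‖ * ‖y v‖) := fun t =>
    (norm_sub_le _ _).trans (add_le_add (norm_pair_le h Y _ v t) (norm_pair_le h Y u _ t))
  have hf0 : f = 0 := by
    refine eq_zero_of_wgt hf hb fun φ hφ => ?_
    have hl : 0 < (Complex.exp ((φ / 2 : ℝ) * Complex.I)).re := by
      rw [Complex.exp_ofReal_mul_I_re]
      refine Real.cos_pos_of_mem_Ioo ?_
      have := abs_lt.1 hφ
      constructor <;> linarith [this.1, this.2]
    obtain ⟨a, ha, -, heq⟩ := exists_sylvester h hξ hx hxs hl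
    rw [← hY] at heq
    simp only [f, mul_sub]
    rw [integral_sub (integrable_wgt_mul hφ (continuous_pair h Y _ v) (norm_pair_le h Y _ v))
      (integrable_wgt_mul hφ (continuous_pair h Y u _) (norm_pair_le h Y u _)),
      integral_formula h hφ heq, integral_formula h hφ heq, ContinuousLinearMap.star_eq_adjoint,
      ContinuousLinearMap.adjoint_inner_left]
    rw [show y (a v) = a (y v) from DFunLike.congr_fun (mem_iff_comm.1 ha y hy) v, sub_self]
  have h0 := congrFun hf0 s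
  simp only [f, Pi.zero_apply, sub_eq_zero] at h0
  rw [h.inner_modU, h.inner_modU, neg_neg, ContinuousLinearMap.star_eq_adjoint,
    ContinuousLinearMap.adjoint_inner_left] at h0
  rw [apply_mul, apply_mul, apply_mul, apply_mul, apply_mul, apply_mul]
  exact h0

omit [CompleteSpace H] in
theorem conjBy_apply (J : H ≃ₗᵢ⋆[ℂ] H) (x : H →L[ℂ] H) (v : H) :
    conjBy J x v = J (x (J v)) := rfl

theorem CycSep.orbit_mem (h : CycSep M ξ) (hξ : ‖ξ‖ = 1) {x' : H →L[ℂ] H}
    (hx : x' ∈ M.commutant) (s : ℝ) :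
    modU M ξ s * conjBy h.modJ x' * modU M ξ (-s) ∈ M := by
  have hr : (realPart x' : H →L[ℂ] H) ∈ M.commutant := by
    rw [realPart_apply_coe]
    exact smul_mem_vn _ (add_mem hx (star_mem hx))
  have hi : (imaginaryPart x' : H →L[ℂ] H) ∈ M.commutant := by
    rw [imaginaryPart_apply_coe]
    exact smul_mem_vn _ (smul_mem_vn _ (sub_mem hx (star_mem hx)))
  have e : conjBy h.modJ x' = conjBy h.modJ (realPart x' : H →L[ℂ] H) -
      Complex.I • conjBy h.modJ (imaginaryPart x' : H →L[ℂ] H) := by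
    refine ContinuousLinearMap.ext fun v => ?_
    conv_lhs => rw [← realPart_add_I_smul_imaginaryPart x']
    rw [sub_apply, smul_apply, conjBy_apply, conjBy_apply, conjBy_apply, add_apply, smul_apply,
      map_add, LinearIsometryEquiv.map_smulₛₗ]
    simp [sub_eq_add_neg]
  rw [e, mul_sub, sub_mul, mul_smul_comm, smul_mul_assoc]
  exact sub_mem (h.orbit_mem_sa hξ hr (realPart x').2 s)
    (smul_mem_vn _ (h.orbit_mem_sa hξ hi (imaginaryPart x').2 s))

/-- The commutant is cyclic and separated. -/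
theorem CycSep.symm (h : CycSep M ξ) : CycSep M.commutant ξ := by
  refine ⟨h.commutant_dense, fun x hx hx0 => ?_⟩
  refine ContinuousLinearMap.ext fun v => congrFun (Continuous.ext_on h.cyclic x.continuous
    continuous_const (g := fun _ => 0) ?_) v
  rintro _ ⟨a, ha, rfl⟩
  show x (a ξ) = 0
  rw [show x (a ξ) = a (x ξ) from DFunLike.congr_fun (mem_iff_comm.1 ha x hx) ξ, hx0, map_zero]

theorem CycSep.pK_commutant (h : CycSep M ξ) (v : H) :
    pK M.commutant ξ v = v - qK M ξ v := by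
  have hi : ∀ w ∈ kS M.commutant ξ, ∀ x ∈ kS M ξ, (⟪w, x⟫_ℂ).im = 0 := by
    intro w hw x hx
    have hc : IsClosed {w : H | (⟪w, x⟫_ℂ).im = 0} :=
      isClosed_eq (Complex.continuous_im.comp (continuous_id.inner continuous_const))
        continuous_const
    refine closure_minimal ?_ hc hw
    rintro _ ⟨y, hy, hys, rfl⟩
    exact im_inner_kS M ξ hy hys hx
  have hq : ∀ w ∈ kS M.commutant ξ, qK M ξ w = 0 := by
    intro w hw
    have horth : ∀ x ∈ kS M ξ, (⟪(-Complex.I) • w, x⟫_ℂ).re = 0 := fun x hx => by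
      rw [inner_smul_left]
      simp [hi w hw x hx]
    have h0 : pK M ξ ((-Complex.I) • w) = 0 := by
      have b := pK_orth M ξ ((-Complex.I) • w) (pK_mem M ξ ((-Complex.I) • w))
      rw [inner_sub_left, Complex.sub_re, horth _ (pK_mem M ξ _), zero_sub, neg_eq_zero,
        inner_self_eq_norm_sq_to_K] at b
      simpa [← Complex.ofReal_pow] using b
    rw [qK, h0, smul_zero]
  set p := pK M.commutant ξ v with hp
  set e := v - qK M ξ v - p with he
  have hqe : qK M ξ e = 0 := by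
    rw [he, qK_sub, qK_sub, qK_idem, sub_self, hq _ (pK_mem _ _ _), sub_zero]
  have horth : ∀ w ∈ kS M.commutant ξ, (⟪e, w⟫_ℂ).re = 0 := by
    intro w hw
    have h1 := pK_orth M.commutant ξ v hw
    have h2 : (⟪qK M ξ v, w⟫_ℂ).re = 0 := by
      rw [qK_symm, hq w hw, inner_zero_right, Complex.zero_re]
    rw [he, sub_right_comm, inner_sub_left, Complex.sub_re, h1, h2, sub_zero]
  have hez : Complex.I • e = 0 := by
    refine h.dual_eq_zero (fun x hx hs => ?_) fun y hy hs => ?_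
    · rw [qK, smul_eq_zero, or_iff_right Complex.I_ne_zero] at hqe
      have b := pK_orth M ξ ((-Complex.I) • e) (mem_kS M ξ hx hs)
      rw [hqe, sub_zero, inner_smul_left] at b
      rw [inner_smul_left]
      simp at b ⊢
      linarith
    · have := horth _ (mem_kS M.commutant ξ hy hs)
      rw [inner_smul_left]
      simp [this]
  rw [smul_eq_zero, or_iff_right Complex.I_ne_zero, he, sub_eq_zero] at hez
  exact hez.symm

theorem CycSep.qK_commutant (h : CycSep M ξ) (v : H) :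
    qK M.commutant ξ v = v - pK M ξ v := by
  rw [qK, h.pK_commutant, smul_sub, qK, smul_smul, smul_smul, smul_smul]
  norm_num

theorem CycSep.opR_commutant (h : CycSep M ξ) : opR M.commutant ξ = 2 - opR M ξ :=
  ContinuousLinearMap.ext fun v => by
    rw [opR_apply, h.pK_commutant, h.qK_commutant, sub_apply, two_apply, opR_apply, two_smul]
    abel

theorem CycSep.opD_commutant (h : CycSep M ξ) (v : H) : opD M.commutant ξ v = opD M ξ v := by
  rw [opD_apply, h.pK_commutant, h.qK_commutant, opD_apply]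
  abel

theorem CycSep.fR_commutant (h : CycSep M ξ) {g : ℝ → ℝ} (hg : Continuous g) :
    fR M.commutant ξ g = fR M ξ fun r => g (2 - r) := by
  have e : cfc (fun r : ℝ => 2 - r) (opR M ξ) = 2 - opR M ξ := by
    rw [cfc_sub (fun _ : ℝ => (2 : ℝ)) (fun r => r) (opR M ξ) continuousOn_const continuousOn_id,
      cfc_const 2 (opR M ξ) (opR_selfAdjoint M ξ), cfc_id' ℝ _ (opR_selfAdjoint M ξ), map_ofNat]
  rw [fR, fR, h.opR_commutant, ← e,
    ← cfc_comp' g (fun r : ℝ => 2 - r) _ hg.continuousOn (by fun_prop) (opR_selfAdjoint M ξ)]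

theorem CycSep.tK_commutant (h : CycSep M ξ) : tK M.commutant ξ = tK M ξ := by
  rw [tK_eq, tK_eq, h.fR_commutant continuous_fT]
  congr 1
  funext r
  rw [fT, fT, sub_sub_cancel, mul_comm]

theorem CycSep.modJ_commutant (h : CycSep M ξ) (v : H) : h.symm.modJ v = h.modJ v := by
  refine congrFun (h.tK_dense.equalizer h.symm.modJ.continuous h.modJ.continuous
    (funext fun w => ?_)) v
  simp only [Function.comp_apply, modJ_apply, h.jMap_T]
  conv_lhs => rw [← h.tK_commutant, h.symm.jMap_T, h.opD_commutant]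

theorem CycSep.modU_commutant (h : CycSep M ξ) (t : ℝ) :
    modU M.commutant ξ t = modU M ξ (-t) := by
  refine h.ext_T fun v => ?_
  conv_lhs => rw [← h.tK_commutant, h.symm.modU_T]
  rw [h.modU_T, gK, gK, h.fR_commutant (continuous_gC t), h.fR_commutant (continuous_gS t)]
  simp only [gC_flip, gS_flip, gC_neg, gS_neg]
  rfl

/-- Tomita's theorem for a unit cyclic separating vector. -/
theorem CycSep.modular (h : CycSep M ξ) (hξ : ‖ξ‖ = 1) :
    Modular M ξ (opR M ξ) h.modJ (modU M ξ) := by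
  have hJJ : ∀ v, h.modJ (h.modJ v) = v := h.jMap_jMap
  have hconjJ : ∀ x : H →L[ℂ] H, conjBy h.symm.modJ x = conjBy h.modJ x := fun x =>
    ContinuousLinearMap.ext fun v => by
      rw [conjBy_apply, conjBy_apply, h.modJ_commutant, h.modJ_commutant]
  have h1 : ∀ y ∈ M.commutant, conjBy h.modJ y ∈ M := fun y hy => by
    have := h.orbit_mem hξ hy 0
    rwa [neg_zero, h.modU_zero, one_mul, mul_one] at this
  have h2 : ∀ x ∈ M, ∀ s, modU M ξ (-s) * conjBy h.modJ x * modU M ξ s ∈ M.commutant := by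
    intro x hx s
    have := h.symm.orbit_mem hξ (x' := x) (by rwa [M.commutant_commutant]) s
    rwa [hconjJ, h.modU_commutant, h.modU_commutant, neg_neg] at this
  have h3 : ∀ x ∈ M, conjBy h.modJ x ∈ M.commutant := fun x hx => by
    have := h2 x hx 0
    rwa [neg_zero, h.modU_zero, one_mul, mul_one] at this
  refine
    { R_sa := opR_selfAdjoint M ξ
      R_spec := opR_spec M ξ
      R_inj := fun v hv => h.opR_injective hv
      R_inj' := fun v hv => h.two_sub_opR_injective hv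
      R_xi := opR_xi M ξ
      J_J := hJJ
      J_xi := h.jMap_xi
      J_R := h.jMap_R
      J_T := h.jMap_tK
      dense_T := h.tK_dense
      S_eq := fun x hx => h.modJ_S hx
      U_T := fun t => (h.modU_tK t).trans (cfc_fU M ξ t).symm
      U_zero := h.modU_zero
      U_add := h.modU_add
      U_star := h.star_modU
      U_R := h.modU_R
      U_J := fun t v => h.modU_J t v
      U_xi := h.modU_xi
      U_cont := h.modU_cont
      U_mem := fun t x hx => ?_
      conj_mem := h3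
      conj_mem' := h1 }
  have hc : conjBy h.modJ (conjBy h.modJ x) = x := ContinuousLinearMap.ext fun v => by
    rw [conjBy_apply, conjBy_apply, hJJ, hJJ]
  have := h.orbit_mem hξ (h3 x hx) t
  rwa [hc] at this

/-- Existence of modular data for a unit cyclic separating vector. -/
theorem exists_modular (M : VonNeumannAlgebra H) (ξ : H) (h : CycSep M ξ) (hξ : ‖ξ‖ = 1) :
    ∃ R J U, Modular M ξ R J U :=
  ⟨_, _, _, h.modular hξ⟩

end Vale.Agent.P132.Tomita
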