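import Mathlib

/-!
P132, Tomita: what the modular module provides.
-/

open scoped InnerProductSpace

namespace Vale.Agent.P132.Tomita

universe u

variable {H : Type u} [NormedAddCommGroup H] [InnerProductSpace ℂ H] [CompleteSpace H]

/-- The function of `R` that gives `T`. -/
noncomputable def fT (r : ℝ) : ℝ := Real.sqrt (r * (2 - r))

/-- The function of `R` that gives `U t * T`. -/
noncomputable def fU (t r : ℝ) : ℂ :=
  (fT r : ℂ) * Complex.exp (((t * (Real.log (2 - r) - Real.log r) : ℝ) : ℂ) * Complex.I)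

/-- The operator `T`. -/
noncomputable def opT (R : H →L[ℂ] H) : H →L[ℂ] H := cfc fT R

/-- `J x J` as a linear operator. -/
noncomputable def conjBy (J : H ≃ₗᵢ⋆[ℂ] H) (x : H →L[ℂ] H) : H →L[ℂ] H :=
  (J.toContinuousLinearEquiv.toContinuousLinearMap).comp
    (x.comp J.toContinuousLinearEquiv.toContinuousLinearMap)

/-- Modular data of a cyclic separating vector: `R = 2 / (1 + Δ)`, `J`, and `U t = Δ ^ (i t)`. -/
structure Modular (M : VonNeumannAlgebra H) (ξ : H) (R : H →L[ℂ] H) (J : H ≃ₗᵢ⋆[ℂ] H)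
    (U : ℝ → (H →L[ℂ] H)) : Prop where
  R_sa : IsSelfAdjoint R
  R_spec : spectrum ℝ R ⊆ Set.Icc 0 2
  R_inj : ∀ v, R v = 0 → v = 0
  R_inj' : ∀ v, R v = (2 : ℂ) • v → v = 0
  R_xi : R ξ = ξ
  J_J : ∀ v, J (J v) = v
  J_xi : J ξ = ξ
  J_R : ∀ v, J (R v) = (2 : ℂ) • J v - R (J v)
  J_T : ∀ v, J (opT R v) = opT R (J v)
  dense_T : DenseRange (opT R)
  S_eq : ∀ x ∈ M, J ((2 : ℂ) • x ξ - R (x ξ)) = opT R (star x ξ)
  U_T : ∀ t, U t * opT R = cfc (fun z : ℂ => fU t z.re) R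
  U_zero : U 0 = 1
  U_add : ∀ s t, U (s + t) = U s * U t
  U_star : ∀ t, star (U t) = U (-t)
  U_R : ∀ t, U t * R = R * U t
  U_J : ∀ t v, J (U t v) = U t (J v)
  U_xi : ∀ t, U t ξ = ξ
  U_cont : ∀ v, Continuous fun t => U t v
  U_mem : ∀ t, ∀ x ∈ M, U t * x * U (-t) ∈ M
  conj_mem : ∀ x ∈ M, conjBy J x ∈ M.commutant
  conj_mem' : ∀ y ∈ M.commutant, conjBy J y ∈ M

end Vale.Agent.P132.Tomita
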