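import Vale.Agent.P132.Tomita.Main

/-!
P132, Tomita: the pairs `(x ξ, J (x* ξ))` are dense in the graph of the square root of the modular
operator, and a packaged existence theorem.
-/

open scoped InnerProductSpace
open Vale.Agent.P104.Continuous

namespace Vale.Agent.P132.Tomita

universe u

attribute [local instance] InnerProductSpace.complexToReal

variable {H : Type u} [NormedAddCommGroup H] [InnerProductSpace ℂ H] [CompleteSpace H]

theorem CycSep.graph_dense {M : VonNeumannAlgebra H} {ξ : H} (h : CycSep M ξ) (w : H) {ε : ℝ}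
    (hε : 0 < ε) :
    ∃ y ∈ M, ‖y ξ - opR M ξ w‖ ≤ ε ∧ ‖h.modJ (star y ξ) - opT (opR M ξ) w‖ ≤ ε := by
  obtain ⟨_, ⟨a, ha, has, rfl⟩, h1⟩ :=
    Metric.mem_closure_iff.1 (pK_mem M ξ w) (ε / 2) (by linarith)
  obtain ⟨_, ⟨b, hb, hbs, rfl⟩, h2⟩ :=
    Metric.mem_closure_iff.1 (pK_mem M ξ ((-Complex.I) • w)) (ε / 2) (by linarith)
  rw [dist_comm, dist_eq_norm] at h1 h2
  have hq : ‖Complex.I • b ξ - qK M ξ w‖ < ε / 2 := by
    rwa [qK, ← smul_sub, norm_smul, Complex.norm_I, one_mul]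
  have hs : star (a + Complex.I • b) = a - Complex.I • b := by
    rw [star_add, star_smul, has.star_eq, hbs.star_eq]
    simp [sub_eq_add_neg]
  refine ⟨a + Complex.I • b, add_mem ha (smul_mem_vn _ hb), ?_, ?_⟩
  · rw [add_apply, smul_apply, opR_apply, add_sub_add_comm]
    exact (norm_add_le _ _).trans (by linarith)
  · have e : h.modJ (opD M ξ w) = opT (opR M ξ) w := by
      rw [← h.jMap_T]
      exact h.jMap_jMap _
    rw [hs, ← e, ← map_sub, LinearIsometryEquiv.norm_map, sub_apply, smul_apply, opD_apply,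
      sub_sub_sub_comm]
    exact (norm_sub_le _ _).trans (by linarith)

/-- Tomita's theorem together with the density in the graph. -/
theorem exists_modular_graph (M : VonNeumannAlgebra H) (ξ : H) (h : CycSep M ξ) (hξ : ‖ξ‖ = 1) :
    ∃ R J U, Modular M ξ R J U ∧ ∀ w : H, ∀ ε : ℝ, 0 < ε →
      ∃ y ∈ M, ‖y ξ - R w‖ ≤ ε ∧ ‖J (star y ξ) - opT R w‖ ≤ ε :=
  ⟨_, _, _, h.modular hξ, fun w ε hε => h.graph_dense w hε⟩

end Vale.Agent.P132.Tomita
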