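import Vale.Agent.P132.Tomita.Flow

/-!
P132, Tomita: on spectral cut-off vectors the modular group extends to an entire group.
-/

open scoped InnerProductSpace ComplexConjugate Topology
open Vale.Agent.P104.Continuous Filter

namespace Vale.Agent.P132.Tomita

universe u

attribute [local instance] InnerProductSpace.complexToReal

variable {H : Type u} [NormedAddCommGroup H] [InnerProductSpace ℂ H] [CompleteSpace H]

/-- A continuous substitute for `logD`, exact on `[δ, 2 - δ]`. -/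
noncomputable def kap (δ r : ℝ) : ℝ := Real.log (max (2 - r) δ) - Real.log (max r δ)

theorem continuous_kap {δ : ℝ} (hδ : 0 < δ) : Continuous (kap δ) := by
  unfold kap
  exact (((continuous_const.sub continuous_id).max continuous_const).log fun r =>
    (lt_of_lt_of_le hδ (le_max_right _ _)).ne').sub
    ((continuous_id.max continuous_const).log fun r => (lt_of_lt_of_le hδ (le_max_right _ _)).ne')

theorem kap_eq {δ r : ℝ} (h : r ∈ Set.Icc δ (2 - δ)) : kap δ r = logD r := by
  rw [kap, logD, max_eq_left (by linarith [h.2]), max_eq_left h.1]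

/-- A cut-off: a continuous function supported in `[δ, 2 - δ]`. -/
structure IsCut (δ : ℝ) (g : ℝ → ℝ) : Prop where
  pos : 0 < δ
  cont : Continuous g
  supp : ∀ r, g r ≠ 0 → r ∈ Set.Icc δ (2 - δ)

theorem IsCut.mono {δ δ' : ℝ} {g : ℝ → ℝ} (h : IsCut δ g) (h' : 0 < δ') (hle : δ' ≤ δ) :
    IsCut δ' g :=
  ⟨h', h.cont, fun r hr => Set.Icc_subset_Icc hle (by linarith) (h.supp r hr)⟩

variable (M : VonNeumannAlgebra H) (ξ : H)

/-- The entire group `exp (c • log Δ)` for the substitute of the logarithm. -/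
noncomputable def expK (δ : ℝ) (c : ℂ) : H →L[ℂ] H :=
  NormedSpace.exp (c • fR M ξ (kap δ))

theorem expK_add (δ : ℝ) (a b : ℂ) : expK M ξ δ (a + b) = expK M ξ δ a * expK M ξ δ b := by
  letI : NormedAlgebra ℚ (H →L[ℂ] H) := NormedAlgebra.restrictScalars ℚ ℂ (H →L[ℂ] H)
  rw [expK, add_smul]
  exact NormedSpace.exp_add_of_commute (((Commute.refl _).smul_left a).smul_right b)

theorem expK_zero (δ : ℝ) : expK M ξ δ 0 = 1 := by
  rw [expK, zero_smul, NormedSpace.exp_zero]

theorem star_expK (δ : ℝ) (c : ℂ) : star (expK M ξ δ c) = expK M ξ δ (conj c) := by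
  rw [expK, NormedSpace.star_exp, star_smul, (fR_selfAdjoint M ξ _).star_eq]
  rfl

theorem differentiable_expK (δ : ℝ) : Differentiable ℂ (expK M ξ δ) := fun c =>
  (hasDerivAt_exp_smul_const (fR M ξ (kap δ)) c).differentiableAt

theorem expK_commute (δ : ℝ) (c : ℂ) (f : ℝ → ℝ) : Commute (expK M ξ δ c) (fR M ξ f) :=
  ((commute_fR M ξ (kap δ) f).smul_left c).exp_left

theorem norm_expK_I (δ t : ℝ) : ‖expK M ξ δ (Complex.I * t)‖ ≤ 1 := by
  have h : star (expK M ξ δ (Complex.I * t)) * expK M ξ δ (Complex.I * t) = 1 := by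
    rw [star_expK, ← expK_add, map_mul, Complex.conj_I, Complex.conj_ofReal, neg_mul,
      neg_add_cancel, expK_zero]
  have h2 := congrArg norm h
  rw [CStarRing.norm_star_mul_self] at h2
  rcases le_or_gt ‖expK M ξ δ (Complex.I * t)‖ 1 with h3 | h3
  · exact h3
  · have := ContinuousLinearMap.norm_id_le (𝕜 := ℂ) (E := H)
    rw [← ContinuousLinearMap.one_def, ← h2] at this
    nlinarith

theorem expK_real {δ : ℝ} (hδ : 0 < δ) (s : ℝ) :
    expK M ξ δ s = fR M ξ fun r => Real.exp (s * kap δ r) := by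
  have e : (s : ℂ) • fR M ξ (kap δ) = fR M ξ fun r => s * kap δ r := by
    rw [fR, fR, cfc_const_mul s (kap δ) _ (continuous_kap hδ).continuousOn, Complex.coe_smul]
  rw [expK, e, ← CFC.real_exp_eq_normedSpace_exp (ha := fR_selfAdjoint M ξ _), fR, fR,
    ← cfc_comp' Real.exp (fun r => s * kap δ r) _ Real.continuous_exp.continuousOn
      (continuous_const.mul (continuous_kap hδ)).continuousOn (opR_selfAdjoint M ξ)]

theorem norm_expK_real {δ : ℝ} (hδ : 0 < δ) {s : ℝ} (hs : |s| ≤ 1 / 2) :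
    ‖expK M ξ δ s‖ ≤ Real.exp (‖fR M ξ (kap δ)‖ / 2) := by
  rw [expK_real M ξ hδ, fR]
  refine norm_cfc_le (Real.exp_pos _).le fun r hr => ?_
  rw [Real.norm_eq_abs, abs_of_pos (Real.exp_pos _), Real.exp_le_exp]
  have h1 : |kap δ r| ≤ ‖fR M ξ (kap δ)‖ := by
    have := norm_apply_le_norm_cfc (kap δ) (opR M ξ) hr
      (continuous_kap hδ).continuousOn (opR_selfAdjoint M ξ)
    simpa [fR] using this
  calc s * kap δ r ≤ |s| * |kap δ r| := (le_abs_self _).trans_eq (abs_mul _ _)
    _ ≤ 1 / 2 * ‖fR M ξ (kap δ)‖ := mul_le_mul hs h1 (abs_nonneg _) (by norm_num)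
    _ = _ := by ring

theorem norm_expK_strip {δ : ℝ} (hδ : 0 < δ) {z : ℂ} (hz : |z.im| ≤ 1 / 2) :
    ‖expK M ξ δ (Complex.I * z)‖ ≤ Real.exp (‖fR M ξ (kap δ)‖ / 2) := by
  have e : Complex.I * z = Complex.I * (z.re : ℂ) + ((-z.im : ℝ) : ℂ) := by
    apply Complex.ext <;> simp
  rw [e, expK_add]
  refine (norm_mul_le _ _).trans ?_
  calc _ ≤ 1 * Real.exp (‖fR M ξ (kap δ)‖ / 2) :=
        mul_le_mul (norm_expK_I M ξ δ z.re) (norm_expK_real M ξ hδ (by rwa [abs_neg]))
          (norm_nonneg _) zero_le_one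
    _ = _ := one_mul _

variable {M ξ}

theorem IsCut.exp_half {δ : ℝ} {g : ℝ → ℝ} (hg : IsCut δ g) (w : H) :
    expK M ξ δ (1 / 2 : ℝ) (tK M ξ (fR M ξ g w)) =
        (2 : ℂ) • fR M ξ g w - opR M ξ (fR M ξ g w) ∧
      expK M ξ δ (-1 / 2 : ℝ) (tK M ξ (fR M ξ g w)) = opR M ξ (fR M ξ g w) := by
  have hk := continuous_kap hg.pos
  have he : ∀ s : ℝ, expK M ξ δ s (tK M ξ (fR M ξ g w)) =
      fR M ξ (fun r => Real.exp (s * kap δ r) * (fT r * g r)) w := fun s => by
    rw [← apply_mul, ← apply_mul, tK_eq, expK_real M ξ hg.pos, mul_assoc,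
      fR_mul M ξ continuous_fT hg.cont, fR_mul M ξ (by fun_prop) (continuous_fT.fun_mul hg.cont)]
  have hX : fR M ξ (fun r => r) = opR M ξ := cfc_id' ℝ _ (opR_selfAdjoint M ξ)
  have key : ∀ r, Real.exp (1 / 2 * kap δ r) * (fT r * g r) = (2 - r) * g r ∧
      Real.exp (-1 / 2 * kap δ r) * (fT r * g r) = r * g r := by
    intro r
    by_cases h : g r = 0
    · simp [h]
    · obtain ⟨h1, h2⟩ := hg.supp r h
      have p1 : 0 < r := hg.pos.trans_le h1
      have p2 : 0 < 2 - r := by linarith [hg.pos]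
      rw [kap_eq ⟨h1, h2⟩, logD, fT, Real.sqrt_mul p1.le]
      have s1 : Real.exp (1 / 2 * Real.log r) = Real.sqrt r := by
        rw [Real.sqrt_eq_rpow, Real.rpow_def_of_pos p1]; ring_nf
      have s2 : Real.exp (1 / 2 * Real.log (2 - r)) = Real.sqrt (2 - r) := by
        rw [Real.sqrt_eq_rpow, Real.rpow_def_of_pos p2]; ring_nf
      have n1 : Real.sqrt r ≠ 0 := (Real.sqrt_pos.2 p1).ne'
      have n2 : Real.sqrt (2 - r) ≠ 0 := (Real.sqrt_pos.2 p2).ne'
      constructor
      · rw [mul_sub, Real.exp_sub, s1, s2]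
        field_simp
        rw [Real.sq_sqrt p2.le]
      · rw [show -1 / 2 * (Real.log (2 - r) - Real.log r) =
            1 / 2 * Real.log r - 1 / 2 * Real.log (2 - r) by ring, Real.exp_sub, s1, s2]
        field_simp
        rw [Real.sq_sqrt p1.le]
  constructor
  · rw [he]
    simp only [(key _).1]
    have e : (fun r => (2 - r) * g r) = fun r => 2 * g r - r * g r := by funext r; ring
    rw [e, fR, cfc_sub (fun r => 2 * g r) (fun r => r * g r) _
        (continuous_const.mul hg.cont).continuousOn (continuous_id.mul hg.cont).continuousOn,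
      cfc_const_mul 2 g _ hg.cont.continuousOn, sub_apply, smul_apply]
    change (2 : ℝ) • fR M ξ g w - fR M ξ (fun r => r * g r) w = _
    rw [← fR_mul M ξ continuous_id' hg.cont, hX, apply_mul, ← Complex.coe_smul]
    norm_num
  · rw [he]
    simp only [(key _).2]
    rw [← fR_mul M ξ continuous_id' hg.cont, hX, apply_mul]

theorem IsCut.exp_it (h : CycSep M ξ) {δ : ℝ} {g : ℝ → ℝ} (hg : IsCut δ g) (t : ℝ) (w : H) :
    expK M ξ δ (Complex.I * t) (tK M ξ (fR M ξ g w)) = modU M ξ t (tK M ξ (fR M ξ g w)) := by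
  have hk := continuous_kap hg.pos
  have hgc := hg.cont
  have hs := opR_selfAdjoint M ξ
  have hn : IsStarNormal (opR M ξ) := hs.isStarNormal
  have lift : ∀ f : ℝ → ℝ, fR M ξ f = cfc (fun z : ℂ => ((f z.re : ℝ) : ℂ)) (opR M ξ) := fun f =>
    cfc_real_eq_complex f hs
  have cexp' : expK M ξ δ (Complex.I * t) =
      cfc (fun z : ℂ => Complex.exp (Complex.I * t * (kap δ z.re : ℂ))) (opR M ξ) := by
    have e : (Complex.I * (t : ℂ)) • fR M ξ (kap δ) =
        cfc (fun z : ℂ => Complex.I * t * (kap δ z.re : ℂ)) (opR M ξ) := by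
      rw [lift, cfc_const_mul (Complex.I * (t : ℂ)) (fun z : ℂ => ((kap δ z.re : ℝ) : ℂ))
        (opR M ξ) (by fun_prop)]
    rw [expK, e, ← CFC.complex_exp_eq_normedSpace_exp (ha := cfc_predicate _ _),
      ← cfc_comp' Complex.exp (fun z : ℂ => Complex.I * t * (kap δ z.re : ℂ)) _
        Complex.continuous_exp.continuousOn (by fun_prop) hn]
  rw [← apply_mul, ← apply_mul, h.modU_T, ← apply_mul, tK_eq, mul_assoc,
    fR_mul M ξ continuous_fT hgc]
  refine congrArg (fun T : H →L[ℂ] H => T w) ?_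
  have hU : Continuous fun z : ℂ => fU t z.re := by
    simp only [fU_eq]
    exact (Complex.continuous_ofReal.comp ((continuous_gC t).comp Complex.continuous_re)).add
      (continuous_const.mul
        (Complex.continuous_ofReal.comp ((continuous_gS t).comp Complex.continuous_re)))
  have hT : Continuous fun r => fT r * g r := continuous_fT.fun_mul hgc
  have hT' : Continuous fun z : ℂ => ((fT z.re * g z.re : ℝ) : ℂ) :=
    Complex.continuous_ofReal.comp (hT.comp Complex.continuous_re)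
  have hg' : Continuous fun z : ℂ => ((g z.re : ℝ) : ℂ) :=
    Complex.continuous_ofReal.comp (hgc.comp Complex.continuous_re)
  rw [cexp', ← cfc_fU, lift, lift,
    ← cfc_mul _ _ _ (by fun_prop)
      hT'.continuousOn, ← cfc_mul _ _ _ hU.continuousOn hg'.continuousOn]
  refine cfc_congr fun z _ => ?_
  simp only [fU]
  by_cases hz : g z.re = 0
  · simp [hz]
  · rw [kap_eq (hg.supp _ hz), logD]
    push_cast
    ring_nf

/-- The cut-off vectors are dense. -/
theorem CycSep.dense_cut (h : CycSep M ξ) :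
    Dense {v : H | ∃ δ g w, IsCut δ g ∧ v = tK M ξ (fR M ξ g w)} := by
  rw [Metric.dense_iff]
  intro v ε hε
  obtain ⟨_, ⟨w, rfl⟩, hd⟩ := Metric.mem_closure_iff.1 (h.tK_dense v) (ε / 2) (by linarith)
  obtain ⟨n, hn⟩ := exists_nat_gt (max (2 * (‖w‖ + 1) / (ε / 2)) 2)
  have hn2 : (2 : ℝ) < n := (le_max_right _ _).trans_lt hn
  have hn0 : (0 : ℝ) < n := by linarith
  let g : ℝ → ℝ := fun r => max 0 (min 1 (n * fT r - 1))
  have hg : IsCut (1 / (2 * (n : ℝ) ^ 2)) g := by
    refine ⟨by positivity, by have := continuous_fT; fun_prop, fun r hr => ?_⟩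
    have h1 : 1 / (n : ℝ) < fT r := by
      by_contra hle
      rw [not_lt, le_div_iff₀ hn0] at hle
      exact hr (max_eq_left ((min_le_right _ _).trans (by linarith)))
    have h2 : 0 ≤ r * (2 - r) := by
      by_contra h0
      rw [fT, Real.sqrt_eq_zero'.2 (not_le.1 h0).le] at h1
      exact absurd h1 (not_lt.2 (by positivity))
    have h3 : (1 / (n : ℝ)) ^ 2 ≤ r * (2 - r) := by
      rw [← Real.sq_sqrt h2]
      exact pow_le_pow_left₀ (by positivity) h1.le 2
    rw [div_pow, one_pow] at h3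
    have h4 : 0 ≤ r := by nlinarith [show (0 : ℝ) < 1 / (n : ℝ) ^ 2 by positivity]
    have h5 : r ≤ 2 := by nlinarith [show (0 : ℝ) < 1 / (n : ℝ) ^ 2 by positivity]
    rw [show 1 / (2 * (n : ℝ) ^ 2) = 1 / (n : ℝ) ^ 2 / 2 by ring]
    constructor <;> nlinarith [h3]
  refine ⟨tK M ξ (fR M ξ g w), ?_, _, g, w, hg, rfl⟩
  have e : ‖tK M ξ (fR M ξ g w) - tK M ξ w‖ ≤ 2 / n * ‖w‖ := by
    have e1 : tK M ξ (fR M ξ g w) = fR M ξ (fun r => fT r * g r) w := by
      rw [← apply_mul, tK_eq, fR_mul M ξ continuous_fT hg.cont]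
    rw [e1, tK_eq, ← sub_apply]
    refine ContinuousLinearMap.le_of_opNorm_le _ (norm_fR_sub_le M ξ
      (continuous_fT.fun_mul hg.cont) continuous_fT (by positivity) fun r _ => ?_) w
    have hT := fT_nonneg r
    rcases le_or_gt (2 / n : ℝ) (fT r) with h1 | h1
    · rw [div_le_iff₀ hn0] at h1
      have : g r = 1 := by
        simp only [g]
        rw [min_eq_left (by linarith), max_eq_right zero_le_one]
      rw [this, mul_one, sub_self, abs_zero]
      positivity
    · have g0 : 0 ≤ g r := le_max_left _ _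
      have g1 : g r ≤ 1 := max_le zero_le_one (min_le_left _ _)
      rw [abs_le]
      constructor <;> nlinarith
  rw [Metric.mem_ball, dist_eq_norm]
  have h2n : 2 / n * ‖w‖ < ε / 2 := by
    have := (le_max_left (2 * (‖w‖ + 1) / (ε / 2)) 2).trans_lt hn
    rw [div_lt_iff₀ (by linarith)] at this
    rw [div_mul_eq_mul_div, div_lt_iff₀ hn0]
    nlinarith
  rw [dist_comm, dist_eq_norm] at hd
  calc _ ≤ ‖tK M ξ (fR M ξ g w) - tK M ξ w‖ + ‖tK M ξ w - v‖ :=
        norm_sub_le_norm_sub_add_norm_sub _ _ _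
    _ < ε := by linarith

end Vale.Agent.P132.Tomita
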