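import Vale.Agent.P132.Tomita.Polar

/-!
P132, Tomita: the modular unitary group, built from continuous functions of `R`.
-/

open scoped InnerProductSpace ComplexConjugate Topology
open Vale.Agent.P104.Continuous Filter

namespace Vale.Agent.P132.Tomita

universe u

attribute [local instance] InnerProductSpace.complexToReal

variable {H : Type u} [NormedAddCommGroup H] [InnerProductSpace ℂ H] [CompleteSpace H]

/-- The logarithm of the modular operator as a function of `R`. -/
noncomputable def logD (r : ℝ) : ℝ := Real.log (2 - r) - Real.log r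

/-- The real part of `fU t`. -/
noncomputable def gC (t r : ℝ) : ℝ := fT r * Real.cos (t * logD r)

/-- The imaginary part of `fU t`. -/
noncomputable def gS (t r : ℝ) : ℝ := fT r * Real.sin (t * logD r)

theorem fU_eq (t r : ℝ) : fU t r = (gC t r : ℂ) + Complex.I * (gS t r : ℂ) := by
  rw [fU, Complex.exp_mul_I, ← Complex.ofReal_cos, ← Complex.ofReal_sin, gC, gS, logD]
  push_cast
  ring

theorem fT_nonneg (r : ℝ) : 0 ≤ fT r := Real.sqrt_nonneg _

theorem fT_zero {r : ℝ} (h : r ≤ 0 ∨ 2 ≤ r) : fT r = 0 := by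
  refine Real.sqrt_eq_zero'.2 ?_
  rcases h with h | h
  · exact mul_nonpos_of_nonpos_of_nonneg h (by linarith)
  · exact mul_nonpos_of_nonneg_of_nonpos (by linarith) (by linarith)

theorem continuous_damped (w : ℝ → ℝ) (hw : Continuous w) (hb : ∀ x, |w x| ≤ 1) :
    Continuous fun p : ℝ × ℝ => fT p.2 * w (p.1 * logD p.2) := by
  rw [continuous_iff_continuousAt]
  rintro ⟨t, r⟩
  by_cases h : r ≤ 0 ∨ 2 ≤ r
  · have h0 : fT r * w (t * logD r) = 0 := by rw [fT_zero h, zero_mul]
    unfold ContinuousAt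
    simp only [h0]
    refine squeeze_zero_norm (fun p => ?_) ?_ (a := fun p : ℝ × ℝ => fT p.2)
    · rw [Real.norm_eq_abs, abs_mul, abs_of_nonneg (fT_nonneg _)]
      exact mul_le_of_le_one_right (fT_nonneg _) (hb _)
    · have := (continuous_fT.comp continuous_snd).tendsto (t, r)
      simpa [fT_zero h, Function.comp_def] using this
  · simp only [not_or, not_le] at h
    have hl : ContinuousAt logD r :=
      ((continuousAt_const.sub continuousAt_id).log (show (2 : ℝ) - r ≠ 0 by linarith)).sub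
        (Real.continuousAt_log (by linarith))
    exact ((continuous_fT.comp continuous_snd).continuousAt).mul
      (hw.continuousAt.comp (continuousAt_fst.mul (hl.comp' continuousAt_snd)))

theorem continuous_gC₂ : Continuous fun p : ℝ × ℝ => gC p.1 p.2 :=
  continuous_damped Real.cos Real.continuous_cos Real.abs_cos_le_one

theorem continuous_gS₂ : Continuous fun p : ℝ × ℝ => gS p.1 p.2 :=
  continuous_damped Real.sin Real.continuous_sin Real.abs_sin_le_one

theorem continuous_gC (t : ℝ) : Continuous (gC t) :=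
  continuous_gC₂.comp (Continuous.prodMk continuous_const continuous_id)

theorem continuous_gS (t : ℝ) : Continuous (gS t) :=
  continuous_gS₂.comp (Continuous.prodMk continuous_const continuous_id)

theorem gC_zero : gC 0 = fT := by funext r; simp [gC]

theorem gS_zero : gS 0 = 0 := by funext r; simp [gS]

theorem gC_neg (t : ℝ) : gC (-t) = gC t := by funext r; simp [gC]

theorem gS_neg (t : ℝ) : gS (-t) = -gS t := by funext r; simp [gS]

theorem gC_flip (t r : ℝ) : gC t (2 - r) = gC t r := by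
  rw [gC, gC, fT, fT, logD, logD, sub_sub_cancel, mul_comm (2 - r) r,
    show t * (Real.log r - Real.log (2 - r)) = -(t * (Real.log (2 - r) - Real.log r)) by ring,
    Real.cos_neg]

theorem gS_flip (t r : ℝ) : gS t (2 - r) = -gS t r := by
  rw [gS, gS, fT, fT, logD, logD, sub_sub_cancel, mul_comm (2 - r) r,
    show t * (Real.log r - Real.log (2 - r)) = -(t * (Real.log (2 - r) - Real.log r)) by ring,
    Real.sin_neg, mul_neg]

theorem gC_sq_add_gS_sq (t r : ℝ) : gC t r * gC t r + gS t r * gS t r = fT r * fT r := by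
  have h := Real.sin_sq_add_cos_sq (t * logD r)
  rw [gC, gS]
  linear_combination (fT r * fT r) * h

variable (M : VonNeumannAlgebra H) (ξ : H)

/-- `U t * T`. -/
noncomputable def gK (t : ℝ) : H →L[ℂ] H :=
  fR M ξ (gC t) + Complex.I • fR M ξ (gS t)

theorem gK_zero : gK M ξ 0 = tK M ξ := by
  rw [gK, gC_zero, gS_zero, tK_eq]
  simp [fR, Pi.zero_def, cfc_const_zero]

theorem gK_mul (s t : ℝ) : gK M ξ s * gK M ξ t = gK M ξ (s + t) * tK M ξ := by
  have hc := continuous_gC
  have hs := continuous_gS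
  have add : ∀ f g : ℝ → ℝ, Continuous f → Continuous g →
      fR M ξ (fun r => f r + g r) = fR M ξ f + fR M ξ g := fun f g hf hg =>
    cfc_add _ f g hf.continuousOn hg.continuousOn
  have sub : ∀ f g : ℝ → ℝ, Continuous f → Continuous g →
      fR M ξ (fun r => f r - g r) = fR M ξ f - fR M ξ g := fun f g hf hg =>
    cfc_sub f g _ hf.continuousOn hg.continuousOn
  have e1 : (fun r => gC (s + t) r * fT r) = fun r => gC s r * gC t r - gS s r * gS t r := by
    funext r
    rw [gC, gC, gC, gS, gS, add_mul, Real.cos_add]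
    ring
  have e2 : (fun r => gS (s + t) r * fT r) = fun r => gC s r * gS t r + gS s r * gC t r := by
    funext r
    rw [gS, gC, gC, gS, gS, add_mul, Real.sin_add]
    ring
  simp only [gK, tK_eq, add_mul, mul_add, smul_mul_assoc, mul_smul_comm,
    fR_mul M ξ (hc _) (hc _), fR_mul M ξ (hc _) (hs _), fR_mul M ξ (hs _) (hc _),
    fR_mul M ξ (hs _) (hs _), fR_mul M ξ (hc _) continuous_fT,
    fR_mul M ξ (hs _) continuous_fT, e1, e2]
  rw [sub (fun r => gC s r * gC t r) (fun r => gS s r * gS t r) ((hc _).mul (hc _))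
      ((hs _).mul (hs _)),
    add (fun r => gC s r * gS t r) (fun r => gS s r * gC t r) ((hc _).mul (hs _))
      ((hs _).mul (hc _)), smul_add, smul_smul, Complex.I_mul_I, smul_add]
  simp only [neg_smul, one_smul]
  abel

theorem star_gK (t : ℝ) : star (gK M ξ t) = gK M ξ (-t) := by
  have hn : fR M ξ (-gS t) = -fR M ξ (gS t) := cfc_neg (gS t) _
  rw [gK, gK, gC_neg, gS_neg, hn, star_add, star_smul, (fR_selfAdjoint M ξ _).star_eq,
    (fR_selfAdjoint M ξ _).star_eq]
  simp

theorem commute_fR (f g : ℝ → ℝ) : Commute (fR M ξ f) (fR M ξ g) := cfc_commute_cfc f g _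

theorem commute_gK_R (t : ℝ) : Commute (gK M ξ t) (opR M ξ) := by
  have h : ∀ f : ℝ → ℝ, Commute (fR M ξ f) (opR M ξ) := fun f =>
    (Commute.refl (opR M ξ)).cfc_real f
  exact (h _).add_left ((h _).smul_left _)

theorem commute_gK_tK (t : ℝ) : Commute (gK M ξ t) (tK M ξ) := by
  rw [tK_eq]
  exact (commute_fR M ξ _ _).add_left ((commute_fR M ξ _ _).smul_left _)

theorem norm_gK (t : ℝ) (v : H) : ‖gK M ξ t v‖ = ‖tK M ξ v‖ := by
  have e : star (gK M ξ t) * gK M ξ t = star (tK M ξ) * tK M ξ := by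
    rw [star_gK, gK_mul, neg_add_cancel, gK_zero, (tK_selfAdjoint M ξ).star_eq]
  have h : ∀ A : H →L[ℂ] H, ⟪(star A * A) v, v⟫_ℂ = ⟪A v, A v⟫_ℂ := fun A => by
    rw [apply_mul, ContinuousLinearMap.star_eq_adjoint, ContinuousLinearMap.adjoint_inner_left]
  have h2 := congrArg (fun T : H →L[ℂ] H => ⟪T v, v⟫_ℂ) e
  simp only [h, inner_self_eq_norm_sq_to_K] at h2
  have h3 : ‖gK M ξ t v‖ ^ 2 = ‖tK M ξ v‖ ^ 2 := by exact_mod_cast h2
  nlinarith [norm_nonneg (gK M ξ t v), norm_nonneg (tK M ξ v)]

/-- The modular unitaries. -/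
noncomputable def modU (t : ℝ) : H →L[ℂ] H :=
  (gK M ξ t).toLinearMap.extendOfNorm (tK M ξ).toLinearMap

variable {M ξ}

theorem CycSep.modU_T (h : CycSep M ξ) (t : ℝ) (v : H) :
    modU M ξ t (tK M ξ v) = gK M ξ t v :=
  LinearMap.extendOfNorm_eq (e := (tK M ξ).toLinearMap) h.tK_dense
    ⟨1, fun w => by rw [one_mul]; exact (norm_gK M ξ t w).le⟩ v

theorem CycSep.norm_modU (h : CycSep M ξ) (t : ℝ) (v : H) : ‖modU M ξ t v‖ = ‖v‖ := by
  refine congrFun (h.tK_dense.equalizer (modU M ξ t).continuous.norm continuous_norm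
    (funext fun w => ?_)) v
  simp only [Function.comp_apply, h.modU_T, norm_gK]

theorem CycSep.ext_T (h : CycSep M ξ) {A B : H →L[ℂ] H}
    (e : ∀ v, A (tK M ξ v) = B (tK M ξ v)) : A = B :=
  ContinuousLinearMap.ext fun v =>
    congrFun (h.tK_dense.equalizer A.continuous B.continuous (funext e)) v

theorem CycSep.modU_tK (h : CycSep M ξ) (t : ℝ) : modU M ξ t * tK M ξ = gK M ξ t :=
  ContinuousLinearMap.ext fun v => h.modU_T t v

theorem CycSep.modU_zero (h : CycSep M ξ) : modU M ξ 0 = 1 :=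
  h.ext_T fun v => by rw [h.modU_T, gK_zero]; rfl

theorem CycSep.modU_comm_T (h : CycSep M ξ) (t : ℝ) :
    modU M ξ t * tK M ξ = tK M ξ * modU M ξ t := by
  refine h.ext_T fun v => ?_
  rw [apply_mul, apply_mul, h.modU_T, h.modU_T]
  exact DFunLike.congr_fun (commute_gK_tK M ξ t).eq v

theorem CycSep.modU_add (h : CycSep M ξ) (s t : ℝ) :
    modU M ξ (s + t) = modU M ξ s * modU M ξ t := by
  have e : modU M ξ (s + t) * tK M ξ * tK M ξ = modU M ξ s * modU M ξ t * tK M ξ * tK M ξ := by
    rw [h.modU_tK, mul_assoc (modU M ξ s) (modU M ξ t), h.modU_tK, mul_assoc (modU M ξ s),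
      (commute_gK_tK M ξ t).eq, ← mul_assoc, h.modU_tK, gK_mul]
  refine h.ext_T fun v => ?_
  refine congrFun (h.tK_dense.equalizer ((modU M ξ (s + t)).continuous.comp (tK M ξ).continuous)
    ((modU M ξ s * modU M ξ t).continuous.comp (tK M ξ).continuous) (funext fun w => ?_)) v
  exact DFunLike.congr_fun e w

theorem CycSep.star_modU (h : CycSep M ξ) (t : ℝ) : star (modU M ξ t) = modU M ξ (-t) := by
  have h1 : star (modU M ξ t) * modU M ξ t = 1 := by
    rw [ContinuousLinearMap.star_eq_adjoint]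
    exact ((modU M ξ t).norm_map_iff_adjoint_comp_self).1 (h.norm_modU t)
  calc star (modU M ξ t) = star (modU M ξ t) * (modU M ξ t * modU M ξ (-t)) := by
        rw [← h.modU_add, add_neg_cancel, h.modU_zero, mul_one]
    _ = modU M ξ (-t) := by rw [← mul_assoc, h1, one_mul]

theorem CycSep.modU_R (h : CycSep M ξ) (t : ℝ) :
    modU M ξ t * opR M ξ = opR M ξ * modU M ξ t := by
  refine h.ext_T fun v => ?_
  have e : opR M ξ (tK M ξ v) = tK M ξ (opR M ξ v) :=
    (DFunLike.congr_fun ((Commute.refl (opR M ξ)).cfc_real fT).eq v).symm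
  rw [apply_mul, apply_mul, h.modU_T, e, h.modU_T]
  exact DFunLike.congr_fun (commute_gK_R M ξ t).eq v

theorem CycSep.jMap_gK (h : CycSep M ξ) (t : ℝ) (v : H) :
    jMap M ξ (gK M ξ t v) = gK M ξ t (jMap M ξ v) := by
  refine congrFun (h.tK_dense.equalizer ((jMap M ξ).continuous.comp (gK M ξ t).continuous)
    ((gK M ξ t).continuous.comp (jMap M ξ).continuous) (funext fun w => ?_)) v
  have hn : fR M ξ (-gS t) = -fR M ξ (gS t) := cfc_neg (gS t) _
  have e : gK M ξ t (tK M ξ w) = tK M ξ (gK M ξ t w) :=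
    DFunLike.congr_fun (commute_gK_tK M ξ t).eq w
  simp only [Function.comp_apply, e, h.jMap_T]
  simp only [gK, add_apply, smul_apply, map_add, LinearMap.map_smulₛₗ,
    opD_fR M ξ (continuous_gC t), opD_fR M ξ (continuous_gS t), gC_flip, gS_flip]
  rw [show (fun r => -gS t r) = -gS t from rfl, hn]
  simp

theorem CycSep.modU_J (h : CycSep M ξ) (t : ℝ) (v : H) :
    jMap M ξ (modU M ξ t v) = modU M ξ t (jMap M ξ v) := by
  refine congrFun (h.tK_dense.equalizer ((jMap M ξ).continuous.comp (modU M ξ t).continuous)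
    ((modU M ξ t).continuous.comp (jMap M ξ).continuous) (funext fun w => ?_)) v
  simp only [Function.comp_apply, h.modU_T, h.jMap_gK, h.jMap_tK]

theorem CycSep.modU_xi (h : CycSep M ξ) (t : ℝ) : modU M ξ t ξ = ξ := by
  have e : tK M ξ ξ = ξ := by
    rw [tK_eq, fR_eigen M ξ continuous_fT (opR_xi M ξ), fT]
    norm_num
  have hu := h.modU_T t ξ
  rw [e] at hu
  rw [hu, gK, add_apply, smul_apply, fR_eigen M ξ (continuous_gC t) (opR_xi M ξ),
    fR_eigen M ξ (continuous_gS t) (opR_xi M ξ)]
  simp [gC, gS, logD, fT]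
  norm_num

theorem continuous_fR_family (M : VonNeumannAlgebra H) (ξ : H) {g : ℝ → ℝ → ℝ}
    (hg : Continuous fun p : ℝ × ℝ => g p.1 p.2) : Continuous fun t => fR M ξ (g t) := by
  rw [continuous_iff_continuousAt]
  intro s
  rw [ContinuousAt, Metric.tendsto_nhds]
  intro ε hε
  have key : ∀ᶠ t in 𝓝 s, ∀ r ∈ Set.Icc (0 : ℝ) 2, |g t r - g s r| < ε / 2 := by
    refine isCompact_Icc.eventually_forall_of_forall_eventually fun r _ => ?_
    have hc : Continuous fun p : ℝ × ℝ => |g p.1 p.2 - g s p.2| :=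
      (hg.sub (hg.comp (continuous_const.prodMk continuous_snd))).abs
    exact hc.tendsto (s, r) |>.eventually (Iio_mem_nhds (by simpa using half_pos hε))
  filter_upwards [key] with t ht
  have hc : ∀ a, Continuous (g a) := fun a => hg.comp (continuous_const.prodMk continuous_id)
  rw [dist_eq_norm]
  exact lt_of_le_of_lt (norm_fR_sub_le M ξ (hc t) (hc s) (half_pos hε).le fun r hr => (ht r hr).le)
    (half_lt_self hε)

theorem continuous_gK (M : VonNeumannAlgebra H) (ξ : H) : Continuous (gK M ξ) :=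
  (continuous_fR_family M ξ continuous_gC₂).add
    ((continuous_fR_family M ξ continuous_gS₂).const_smul Complex.I)

theorem CycSep.modU_cont (h : CycSep M ξ) (v : H) : Continuous fun t => modU M ξ t v := by
  rw [continuous_iff_continuousAt]
  intro s
  rw [ContinuousAt, Metric.tendsto_nhds]
  intro ε hε
  obtain ⟨_, ⟨w, rfl⟩, hd⟩ := Metric.mem_closure_iff.1 (h.tK_dense v) (ε / 4) (by linarith)
  have hc : Continuous fun t => gK M ξ t w :=
    (ContinuousLinearMap.apply ℂ H w).continuous.comp (continuous_gK M ξ)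
  filter_upwards [Metric.tendsto_nhds.1 (hc.tendsto s) (ε / 2) (by linarith)] with t ht
  have iso : ∀ a, dist (modU M ξ a v) (gK M ξ a w) < ε / 4 := fun a => by
    rw [← h.modU_T a w, dist_eq_norm, ← map_sub, h.norm_modU, ← dist_eq_norm]
    exact hd
  calc dist (modU M ξ t v) (modU M ξ s v) ≤ dist (modU M ξ t v) (gK M ξ t w) +
        dist (gK M ξ t w) (gK M ξ s w) + dist (gK M ξ s w) (modU M ξ s v) :=
        dist_triangle4 _ _ _ _
    _ < ε := by
      rw [dist_comm (gK M ξ s w)]
      linarith [iso t, iso s]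

theorem cfc_fU (M : VonNeumannAlgebra H) (ξ : H) (t : ℝ) :
    cfc (fun z : ℂ => fU t z.re) (opR M ξ) = gK M ξ t := by
  have hs := opR_selfAdjoint M ξ
  have c1 : Continuous fun z : ℂ => ((gC t z.re : ℝ) : ℂ) :=
    Complex.continuous_ofReal.comp ((continuous_gC t).comp Complex.continuous_re)
  have c2 : Continuous fun z : ℂ => ((gS t z.re : ℝ) : ℂ) :=
    Complex.continuous_ofReal.comp ((continuous_gS t).comp Complex.continuous_re)
  simp only [fU_eq]
  rw [cfc_add _ (fun z : ℂ => ((gC t z.re : ℝ) : ℂ)) (fun z : ℂ => Complex.I * (gS t z.re : ℝ))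
      c1.continuousOn (continuous_const.mul c2).continuousOn,
    cfc_const_mul Complex.I _ _ c2.continuousOn, gK, fR, fR, cfc_real_eq_complex (gC t) hs,
    cfc_real_eq_complex (gS t) hs]

end Vale.Agent.P132.Tomita
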