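import Vale.Agent.P132.Tomita.Real
import Vale.Agent.P132.Tomita.Spec

/-!
P132, Tomita: the polar decomposition of `P - Q` and the conjugation `J`.
-/

open scoped InnerProductSpace ComplexConjugate
open Vale.Agent.P104.Continuous

namespace Vale.Agent.P132.Tomita

universe u

attribute [local instance] InnerProductSpace.complexToReal

variable {H : Type u} [NormedAddCommGroup H] [InnerProductSpace ℂ H] [CompleteSpace H]

variable (M : VonNeumannAlgebra H) (ξ : H)

theorem opR_nonneg : 0 ≤ opR M ξ := by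
  rw [ContinuousLinearMap.nonneg_iff_isPositive]
  refine ⟨opR_symm M ξ, fun v => ?_⟩
  show 0 ≤ (⟪opR M ξ v, v⟫_ℂ).re
  rw [re_inner_opR]
  positivity

theorem opR_le_two : opR M ξ ≤ 2 := by
  rw [ContinuousLinearMap.le_def]
  refine ⟨(ContinuousLinearMap.isSelfAdjoint_iff_isSymmetric).1
    ((IsSelfAdjoint.ofNat 2).sub (opR_selfAdjoint M ξ)), fun v => ?_⟩
  show 0 ≤ (⟪((2 : H →L[ℂ] H) - opR M ξ) v, v⟫_ℂ).re
  have e : (2 : H →L[ℂ] H) v = (2 : ℂ) • v := by
    rw [show (2 : H →L[ℂ] H) = (1 : H →L[ℂ] H) + 1 by norm_num, two_smul]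
    simp
  rw [sub_apply, inner_sub_left, Complex.sub_re, e, inner_smul_left, re_inner_opR,
    inner_self_eq_norm_sq_to_K]
  have h1 := mul_self_le_mul_self (norm_nonneg _) (norm_pK_le M ξ v)
  have h2 := mul_self_le_mul_self (norm_nonneg _) (norm_qK_le M ξ v)
  simp [← Complex.ofReal_pow]
  nlinarith

theorem opR_spec : spectrum ℝ (opR M ξ) ⊆ Set.Icc 0 2 := by
  intro x hx
  refine ⟨spectrum_nonneg_of_nonneg (opR_nonneg M ξ) hx, ?_⟩
  refine (le_algebraMap_iff_spectrum_le (ha := opR_selfAdjoint M ξ)).1 ?_ x hx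
  simpa [map_ofNat] using opR_le_two M ξ

theorem opR_xi : opR M ξ ξ = ξ := by
  have h : qK M ξ ξ = 0 := by
    have h0 : pK M ξ ((-Complex.I) • ξ) = 0 := by
      have hK : ∀ w ∈ kS M ξ, (⟪(-Complex.I) • ξ, w⟫_ℂ).re = 0 := by
        intro w hw
        have := im_inner_kS M ξ (one_mem M.commutant) (IsSelfAdjoint.one _) hw
        simpa [inner_smul_left] using this
      have a := pK_orth M ξ ((-Complex.I) • ξ) (pK_mem M ξ ((-Complex.I) • ξ))
      rw [inner_sub_left, Complex.sub_re, hK _ (pK_mem M ξ _), zero_sub, neg_eq_zero,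
        inner_self_eq_norm_sq_to_K] at a
      simpa [← Complex.ofReal_pow] using a
    rw [qK, h0, smul_zero]
  rw [opR_apply, h, add_zero, pK_fix M ξ (xi_mem M ξ)]

/-- The antilinear operator `P - Q`. -/
noncomputable def opD : H →ₛₗ[starRingEnd ℂ] H where
  toFun v := pK M ξ v - qK M ξ v
  map_add' u v := by
    simp only [map_add, qK_add]; abel
  map_smul' c v := by
    have hc : c • v = c.re • v + c.im • (Complex.I • v) := by
      rw [← Complex.coe_smul, ← Complex.coe_smul c.im, smul_smul, ← add_smul, Complex.re_add_im]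
    have hc' : ∀ w : H, conj c • w = c.re • w - c.im • (Complex.I • w) := fun w => by
      rw [← Complex.coe_smul, ← Complex.coe_smul c.im, smul_smul, ← sub_smul]
      congr 1
      apply Complex.ext <;> simp
    rw [hc, hc' (pK M ξ v - qK M ξ v)]
    simp only [map_add, map_smul, qK_add, qK_smul, pK_I_smul, qK_I_smul, smul_sub]
    abel

theorem opD_apply (v : H) : opD M ξ v = pK M ξ v - qK M ξ v := rfl

theorem continuous_opD : Continuous (opD M ξ) :=
  (pK M ξ).continuous.sub (continuous_qK M ξ)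

theorem qK_sub (u v : H) : qK M ξ (u - v) = qK M ξ u - qK M ξ v := by
  rw [eq_sub_iff_add_eq, ← qK_add, sub_add_cancel]

theorem opD_opR (v : H) : opD M ξ (opR M ξ v) = (2 : ℂ) • opD M ξ v - opR M ξ (opD M ξ v) := by
  simp only [opD_apply, opR_apply, map_add, map_sub, pK_idem, qK_idem, qK_add, qK_sub, two_smul]
  abel

theorem opD_opD (v : H) :
    opD M ξ (opD M ξ v) = opR M ξ ((2 : ℂ) • v - opR M ξ v) := by
  rw [map_sub, map_smul]
  simp only [opD_apply, opR_apply, map_add, map_sub, pK_idem, qK_idem, qK_add, qK_sub, two_smul]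
  abel

theorem opD_symm (u v : H) : (⟪opD M ξ u, v⟫_ℂ).re = (⟪u, opD M ξ v⟫_ℂ).re := by
  simp only [opD_apply, inner_sub_left, inner_sub_right, Complex.sub_re, pK_symm M ξ u v,
    qK_symm M ξ u v]

/-- Real functions of `R`. -/
noncomputable def fR (g : ℝ → ℝ) : H →L[ℂ] H := cfc g (opR M ξ)

theorem fR_selfAdjoint (g : ℝ → ℝ) : IsSelfAdjoint (fR M ξ g) := cfc_predicate g _

theorem fR_mul {f g : ℝ → ℝ} (hf : Continuous f) (hg : Continuous g) :
    fR M ξ f * fR M ξ g = fR M ξ fun r => f r * g r :=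
  (cfc_mul f g (opR M ξ) hf.continuousOn hg.continuousOn).symm

theorem norm_fR_sub_le {f g : ℝ → ℝ} (hf : Continuous f) (hg : Continuous g) {δ : ℝ} (hδ : 0 ≤ δ)
    (h : ∀ r ∈ Set.Icc (0 : ℝ) 2, |f r - g r| ≤ δ) : ‖fR M ξ f - fR M ξ g‖ ≤ δ := by
  rw [fR, fR, ← cfc_sub f g (opR M ξ) hf.continuousOn hg.continuousOn]
  exact norm_cfc_le hδ fun r hr => h r (opR_spec M ξ hr)

theorem fR_congr {f g : ℝ → ℝ} (h : ∀ r ∈ Set.Icc (0 : ℝ) 2, f r = g r) :
    fR M ξ f = fR M ξ g :=
  cfc_congr fun r hr => h r (opR_spec M ξ hr)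

theorem fR_polynomial (p : Polynomial ℝ) :
    fR M ξ (fun r => p.eval r) = Polynomial.aeval (opR M ξ) p :=
  cfc_polynomial p (opR M ξ) (opR_selfAdjoint M ξ)

theorem opD_aeval (p : Polynomial ℝ) (v : H) :
    opD M ξ (Polynomial.aeval (opR M ξ) p v) =
      Polynomial.aeval (opR M ξ) (p.comp (Polynomial.C 2 - Polynomial.X)) (opD M ξ v) := by
  induction p using Polynomial.induction_on with
  | C a =>
    simp only [Polynomial.aeval_C, Polynomial.C_comp, Algebra.algebraMap_eq_smul_one, smul_apply,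
      one_apply_eq_self]
    rw [← Complex.coe_smul, LinearMap.map_smulₛₗ, Complex.conj_ofReal, Complex.coe_smul]
  | add p q hp hq => simp only [map_add, add_apply, Polynomial.add_comp, hp, hq]
  | monomial n a ih =>
    rw [pow_succ, ← mul_assoc, mul_comm (Polynomial.C a * Polynomial.X ^ n) Polynomial.X,
      Polynomial.mul_comp, map_mul, apply_mul, Polynomial.aeval_X,
      opD_opR, ih, map_mul, apply_mul, Polynomial.X_comp, map_sub, Polynomial.aeval_C, Polynomial.aeval_X,
      sub_apply, Algebra.algebraMap_eq_smul_one, smul_apply, one_apply_eq_self]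
    rw [← Complex.coe_smul (2 : ℝ)]
    norm_num

theorem opD_fR {g : ℝ → ℝ} (hg : Continuous g) (v : H) :
    opD M ξ (fR M ξ g v) = fR M ξ (fun r => g (2 - r)) (opD M ξ v) := by
  refine eq_of_forall_dist_le fun ε hε => ?_
  set δ := ε / (3 * (‖v‖ + ‖opD M ξ v‖) + 1) with hδ
  have hδ0 : 0 < δ := by positivity
  obtain ⟨p, hp⟩ := exists_polynomial_near_of_continuousOn 0 2 g hg.continuousOn δ hδ0
  have hp' : ∀ r ∈ Set.Icc (0 : ℝ) 2, |g r - p.eval r| ≤ δ := fun r hr => by
    rw [abs_sub_comm]; exact (hp r hr).le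
  set q := p.comp (Polynomial.C 2 - Polynomial.X) with hq
  have hpq : opD M ξ (fR M ξ (fun r => p.eval r) v) = fR M ξ (fun r => q.eval r) (opD M ξ v) := by
    rw [fR_polynomial, fR_polynomial, opD_aeval]
  have hb : ∀ w, ‖opD M ξ w‖ ≤ 2 * ‖w‖ := fun w => by
    rw [opD_apply, two_mul]
    exact (norm_sub_le _ _).trans (add_le_add (norm_pK_le M ξ w) (norm_qK_le M ξ w))
  have h1 : ‖fR M ξ g v - fR M ξ (fun r => p.eval r) v‖ ≤ δ * ‖v‖ := by
    rw [← sub_apply]
    exact ContinuousLinearMap.le_of_opNorm_le _ (norm_fR_sub_le M ξ hg p.continuous hδ0.le hp') v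
  have h2 : ‖fR M ξ (fun r => g (2 - r)) (opD M ξ v) - fR M ξ (fun r => q.eval r) (opD M ξ v)‖ ≤
      δ * ‖opD M ξ v‖ := by
    rw [← sub_apply]
    refine ContinuousLinearMap.le_of_opNorm_le _ (norm_fR_sub_le M ξ (by fun_prop) q.continuous
      hδ0.le fun r hr => ?_) _
    rw [hq, Polynomial.eval_comp]
    simp only [Polynomial.eval_sub, Polynomial.eval_C, Polynomial.eval_X]
    exact hp' _ ⟨by linarith [hr.2], by linarith [hr.1]⟩
  rw [dist_eq_norm]
  calc _ = ‖opD M ξ (fR M ξ g v - fR M ξ (fun r => p.eval r) v) -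
        (fR M ξ (fun r => g (2 - r)) (opD M ξ v) - fR M ξ (fun r => q.eval r) (opD M ξ v))‖ := by
        rw [map_sub, hpq, sub_sub_sub_cancel_right]
    _ ≤ 2 * (δ * ‖v‖) + δ * ‖opD M ξ v‖ :=
        (norm_sub_le _ _).trans (add_le_add ((hb _).trans (by linarith)) h2)
    _ ≤ δ * (3 * (‖v‖ + ‖opD M ξ v‖) + 1) := by
        nlinarith [norm_nonneg v, norm_nonneg (opD M ξ v)]
    _ = ε := div_mul_cancel₀ ε (by positivity)

theorem fR_eigen {g : ℝ → ℝ} (hg : Continuous g) {v : H} (hv : opR M ξ v = v) :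
    fR M ξ g v = g 1 • v := by
  refine eq_of_forall_dist_le fun ε hε => ?_
  set δ := ε / (2 * ‖v‖ + 1) with hδ
  have hδ0 : 0 < δ := by positivity
  obtain ⟨p, hp⟩ := exists_polynomial_near_of_continuousOn 0 2 g hg.continuousOn δ hδ0
  have hp' : ∀ r ∈ Set.Icc (0 : ℝ) 2, |g r - p.eval r| ≤ δ := fun r hr => by
    rw [abs_sub_comm]; exact (hp r hr).le
  have hpv : ∀ p : Polynomial ℝ, Polynomial.aeval (opR M ξ) p v = p.eval 1 • v := by
    intro p
    induction p using Polynomial.induction_on with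
    | C a => simp [Algebra.algebraMap_eq_smul_one]
    | add p q hp hq => simp only [map_add, add_apply, Polynomial.eval_add, add_smul, hp, hq]
    | monomial n a ih =>
      rw [pow_succ, ← mul_assoc, map_mul, apply_mul, Polynomial.aeval_X, hv, ih]
      simp
  have h1 := ContinuousLinearMap.le_of_opNorm_le _
    (norm_fR_sub_le M ξ hg p.continuous hδ0.le hp') v
  rw [sub_apply, fR_polynomial, hpv] at h1
  have h2 : ‖p.eval 1 • v - g 1 • v‖ ≤ δ * ‖v‖ := by
    rw [← sub_smul, norm_smul, Real.norm_eq_abs, abs_sub_comm]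
    exact mul_le_mul_of_nonneg_right (hp' 1 ⟨by norm_num, by norm_num⟩) (norm_nonneg _)
  rw [dist_eq_norm]
  calc _ ≤ δ * ‖v‖ + δ * ‖v‖ := (norm_sub_le_norm_sub_add_norm_sub _ _ _).trans (add_le_add h1 h2)
    _ ≤ δ * (2 * ‖v‖ + 1) := by nlinarith
    _ = ε := div_mul_cancel₀ ε (by positivity)

theorem continuous_fT : Continuous fT := by
  unfold fT; fun_prop

/-- `T` for the data of `(M, ξ)`. -/
noncomputable def tK : H →L[ℂ] H := opT (opR M ξ)

theorem tK_eq : tK M ξ = fR M ξ fT := rfl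

theorem tK_selfAdjoint : IsSelfAdjoint (tK M ξ) := fR_selfAdjoint M ξ fT

theorem tK_sq : tK M ξ * tK M ξ = opR M ξ * (2 - opR M ξ) := by
  have e : fR M ξ (fun r => r * (2 - r)) = opR M ξ * (2 - opR M ξ) := by
    have := fR_polynomial M ξ (Polynomial.X * (Polynomial.C 2 - Polynomial.X))
    simp only [Polynomial.eval_mul, Polynomial.eval_X, Polynomial.eval_sub,
      map_mul, map_sub, Polynomial.aeval_X, map_ofNat, Polynomial.eval_ofNat] at this
    exact this
  rw [tK_eq, fR_mul M ξ continuous_fT continuous_fT, ← e]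
  refine fR_congr M ξ fun r hr => ?_
  exact Real.mul_self_sqrt (mul_nonneg hr.1 (by linarith [hr.2]))

omit [CompleteSpace H] in
theorem two_apply (v : H) : (2 : H →L[ℂ] H) v = (2 : ℂ) • v := by
  rw [show (2 : H →L[ℂ] H) = (1 : H →L[ℂ] H) + 1 by norm_num, two_smul]
  simp

theorem opD_opD' (v : H) : opD M ξ (opD M ξ v) = tK M ξ (tK M ξ v) := by
  rw [opD_opD, ← apply_mul, tK_sq, apply_mul, sub_apply, two_apply]

theorem norm_opD (v : H) : ‖opD M ξ v‖ = ‖tK M ξ v‖ := by
  have h : (⟪opD M ξ v, opD M ξ v⟫_ℂ).re = (⟪tK M ξ v, tK M ξ v⟫_ℂ).re := by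
    rw [opD_symm M ξ v (opD M ξ v), opD_opD', inner_proj (tK_selfAdjoint M ξ) v (tK M ξ v)]
  rw [inner_self_eq_norm_sq_to_K, inner_self_eq_norm_sq_to_K] at h
  simp [← Complex.ofReal_pow] at h
  exact h

theorem opD_tK (v : H) : opD M ξ (tK M ξ v) = tK M ξ (opD M ξ v) := by
  rw [tK_eq, opD_fR M ξ continuous_fT]
  congr 2
  funext r
  rw [fT, fT, sub_sub_cancel, mul_comm]

variable {M ξ}

theorem CycSep.tK_injective (h : CycSep M ξ) {v : H} (hv : tK M ξ v = 0) : v = 0 := by
  have h2 : opR M ξ ((2 : ℂ) • v - opR M ξ v) = 0 := by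
    rw [← two_apply, ← sub_apply, ← apply_mul, ← tK_sq, apply_mul, hv, map_zero]
  exact h.two_sub_opR_injective (sub_eq_zero.1 (h.opR_injective h2)).symm

theorem CycSep.tK_dense (h : CycSep M ξ) : DenseRange (tK M ξ) := by
  have : (LinearMap.range (tK M ξ).toLinearMap).topologicalClosure = ⊤ := by
    rw [Submodule.topologicalClosure_eq_top_iff, Submodule.eq_bot_iff]
    intro v hv
    refine h.tK_injective (inner_self_eq_zero (𝕜 := ℂ) |>.1 ?_)
    rw [← inner_proj (tK_selfAdjoint M ξ)]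
    exact Submodule.inner_right_of_mem_orthogonal (LinearMap.mem_range_self (tK M ξ).toLinearMap (tK M ξ v)) hv
  exact Submodule.dense_iff_topologicalClosure_eq_top.2 this

variable (M ξ)

/-- `J` as a continuous antilinear map. -/
noncomputable def jMap : H →SL[starRingEnd ℂ] H :=
  (opD M ξ).extendOfNorm (tK M ξ).toLinearMap

variable {M ξ}

theorem CycSep.jMap_T (h : CycSep M ξ) (v : H) : jMap M ξ (tK M ξ v) = opD M ξ v :=
  LinearMap.extendOfNorm_eq (e := (tK M ξ).toLinearMap) h.tK_dense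
    ⟨1, fun w => by rw [one_mul]; exact (norm_opD M ξ w).le⟩ v

theorem CycSep.norm_jMap (h : CycSep M ξ) (v : H) : ‖jMap M ξ v‖ = ‖v‖ := by
  refine congrFun (h.tK_dense.equalizer (jMap M ξ).continuous.norm continuous_norm
    (funext fun w => ?_)) v
  simp only [Function.comp_apply, h.jMap_T, norm_opD]

theorem CycSep.jMap_jMap (h : CycSep M ξ) (v : H) : jMap M ξ (jMap M ξ v) = v := by
  have hd : DenseRange (tK M ξ ∘ tK M ξ) := h.tK_dense.comp h.tK_dense (tK M ξ).continuous
  refine congrFun (hd.equalizer ((jMap M ξ).continuous.comp (jMap M ξ).continuous) continuous_id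
    (funext fun w => ?_)) v
  simp only [Function.comp_apply, h.jMap_T, opD_tK, opD_opD', id_eq]

theorem CycSep.jMap_R (h : CycSep M ξ) (v : H) :
    jMap M ξ (opR M ξ v) = (2 : ℂ) • jMap M ξ v - opR M ξ (jMap M ξ v) := by
  refine congrFun (h.tK_dense.equalizer ((jMap M ξ).continuous.comp (opR M ξ).continuous)
    (((jMap M ξ).continuous.const_smul (2 : ℂ)).sub
      ((opR M ξ).continuous.comp (jMap M ξ).continuous)) (funext fun w => ?_)) v
  have hc : opR M ξ (tK M ξ w) = tK M ξ (opR M ξ w) := by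
    have e := ((Commute.refl (opR M ξ)).cfc_real fT).eq
    exact (DFunLike.congr_fun e w).symm
  simp only [Function.comp_apply, Pi.sub_apply, Pi.smul_apply, hc, h.jMap_T, opD_opR]

theorem CycSep.jMap_tK (h : CycSep M ξ) (v : H) :
    jMap M ξ (tK M ξ v) = tK M ξ (jMap M ξ v) := by
  refine congrFun (h.tK_dense.equalizer ((jMap M ξ).continuous.comp (tK M ξ).continuous)
    ((tK M ξ).continuous.comp (jMap M ξ).continuous) (funext fun w => ?_)) v
  simp only [Function.comp_apply, h.jMap_T, opD_tK]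

theorem CycSep.jMap_xi (h : CycSep M ξ) : jMap M ξ ξ = ξ := by
  have e : tK M ξ ξ = ξ := by
    rw [tK_eq, fR_eigen M ξ continuous_fT (opR_xi M ξ), fT]
    norm_num
  have hj := h.jMap_T ξ
  rw [e] at hj
  rw [hj, opD_apply, pK_fix M ξ (xi_mem M ξ)]
  have hq : qK M ξ ξ = 0 := by
    have := opR_xi M ξ
    rw [opR_apply, pK_fix M ξ (xi_mem M ξ)] at this
    exact add_left_cancel (a := ξ) (by rw [this, add_zero])
  rw [hq, sub_zero]

/-- The modular conjugation. -/
noncomputable def CycSep.modJ (h : CycSep M ξ) : H ≃ₗᵢ⋆[ℂ] H where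
  toFun := jMap M ξ
  invFun := jMap M ξ
  left_inv := h.jMap_jMap
  right_inv := h.jMap_jMap
  map_add' := map_add _
  map_smul' c v := (jMap M ξ).map_smulₛₗ c v
  norm_map' := h.norm_jMap

theorem CycSep.modJ_apply (h : CycSep M ξ) (v : H) : h.modJ v = jMap M ξ v := rfl

theorem CycSep.modJ_S (h : CycSep M ξ) {x : H →L[ℂ] H} (hx : x ∈ M) :
    h.modJ ((2 : ℂ) • x ξ - opR M ξ (x ξ)) = tK M ξ (star x ξ) := by
  have key : ∀ y ∈ M, IsSelfAdjoint y →
      h.modJ ((2 : ℂ) • y ξ - opR M ξ (y ξ)) = tK M ξ (y ξ) := by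
    intro y hy hs
    have hv := pK_fix M ξ (mem_kS M ξ hy hs)
    have e : (2 : ℂ) • y ξ - opR M ξ (y ξ) = opD M ξ (y ξ) := by
      rw [opR_apply, opD_apply, hv, two_smul]; abel
    rw [e, ← h.jMap_T, modJ_apply, h.jMap_jMap]
  have hr : (realPart x : H →L[ℂ] H) ∈ M := by
    rw [realPart_apply_coe]
    exact smul_mem_vn _ (add_mem hx (star_mem hx))
  have hi : (imaginaryPart x : H →L[ℂ] H) ∈ M := by
    rw [imaginaryPart_apply_coe]
    exact smul_mem_vn _ (smul_mem_vn _ (sub_mem hx (star_mem hx)))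
  have e := realPart_add_I_smul_imaginaryPart x
  generalize (realPart x : H →L[ℂ] H) = a, (imaginaryPart x : H →L[ℂ] H) = b,
    (realPart x).2 = ha, (imaginaryPart x).2 = hb at *
  subst e
  have ka := key a hr ha
  have kb := key b hi hb
  have hs : star (a + Complex.I • b) = a - Complex.I • b := by
    rw [star_add, star_smul, ha.star_eq, hb.star_eq]
    simp [sub_eq_add_neg]
  rw [hs, sub_apply, add_apply, smul_apply, map_add, map_smul, map_sub (tK M ξ), map_smul]
  rw [← ka, ← kb]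
  simp only [map_add, map_sub, map_smul, LinearIsometryEquiv.map_smulₛₗ, smul_sub, smul_add,
    smul_comm (2 : ℂ) Complex.I]
  simp [Complex.conj_I, sub_eq_add_neg]
  abel

end Vale.Agent.P132.Tomita
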