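import Vale.Agent.P104.Continuous.Basic

/-!
P132, Tomita: the real subspace of a cyclic separating vector and the two bounded operators of
Rieffel and van Daele.
-/

open scoped InnerProductSpace ComplexConjugate
open Vale.Agent.P104.Continuous

namespace Vale.Agent.P132.Tomita

universe u

attribute [local instance] InnerProductSpace.complexToReal

variable {H : Type u} [NormedAddCommGroup H] [InnerProductSpace ℂ H] [CompleteSpace H]

/-- `ξ` is cyclic and separating for `M`. -/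
structure CycSep (M : VonNeumannAlgebra H) (ξ : H) : Prop where
  cyclic : Dense {v : H | ∃ x ∈ M, x ξ = v}
  separating : ∀ x ∈ M, x ξ = 0 → x = 0

omit [CompleteSpace H] in
theorem re_inner_eq (u v : H) : (⟪u, v⟫_ℂ).re = ⟪u, v⟫_ℝ := rfl

variable (M : VonNeumannAlgebra H) (ξ : H)

/-- The vectors given by the self-adjoint elements. -/
def saVec : Submodule ℝ H where
  carrier := {v | ∃ x ∈ M, IsSelfAdjoint x ∧ x ξ = v}
  zero_mem' := ⟨0, zero_mem M, IsSelfAdjoint.zero _, rfl⟩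
  add_mem' := by
    rintro _ _ ⟨x, hx, hxs, rfl⟩ ⟨y, hy, hys, rfl⟩
    exact ⟨x + y, add_mem hx hy, hxs.add hys, rfl⟩
  smul_mem' := by
    rintro r _ ⟨x, hx, hxs, rfl⟩
    refine ⟨(r : ℂ) • x, smul_mem_vn _ hx, ?_, ?_⟩
    · exact IsSelfAdjoint.smul (Complex.conj_ofReal r) hxs
    · exact Complex.coe_smul r _

/-- The closure of the vectors given by the self-adjoint elements. -/
noncomputable def kS : Submodule ℝ H := (saVec M ξ).topologicalClosure

/-- The real projection on `kS`. -/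
noncomputable def pK : H →L[ℝ] H :=
  have : CompleteSpace (kS M ξ) :=
    (Submodule.isClosed_topologicalClosure (saVec M ξ)).completeSpace_coe
  (kS M ξ).starProjection

theorem pK_mem (v : H) : pK M ξ v ∈ kS M ξ := by
  have : CompleteSpace (kS M ξ) :=
    (Submodule.isClosed_topologicalClosure (saVec M ξ)).completeSpace_coe
  exact (kS M ξ).starProjection_apply_mem v

theorem pK_fix {v : H} (hv : v ∈ kS M ξ) : pK M ξ v = v := by
  have : CompleteSpace (kS M ξ) :=
    (Submodule.isClosed_topologicalClosure (saVec M ξ)).completeSpace_coe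
  exact Submodule.starProjection_eq_self_iff.2 hv

theorem pK_orth (v : H) {w : H} (hw : w ∈ kS M ξ) : (⟪v - pK M ξ v, w⟫_ℂ).re = 0 := by
  have : CompleteSpace (kS M ξ) :=
    (Submodule.isClosed_topologicalClosure (saVec M ξ)).completeSpace_coe
  rw [re_inner_eq]
  exact (kS M ξ).starProjection_inner_eq_zero v w hw

theorem mem_kS {x : H →L[ℂ] H} (hx : x ∈ M) (hs : IsSelfAdjoint x) : x ξ ∈ kS M ξ :=
  (saVec M ξ).le_topologicalClosure ⟨x, hx, hs, rfl⟩

theorem xi_mem : ξ ∈ kS M ξ := mem_kS M ξ (one_mem M) (IsSelfAdjoint.one _)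

theorem pK_idem (v : H) : pK M ξ (pK M ξ v) = pK M ξ v := pK_fix M ξ (pK_mem M ξ v)

/-- `pK` is symmetric for the real part of the inner product. -/
theorem pK_symm (u v : H) : (⟪pK M ξ u, v⟫_ℂ).re = (⟪u, pK M ξ v⟫_ℂ).re := by
  have h1 := pK_orth M ξ v (pK_mem M ξ u)
  have h2 := pK_orth M ξ u (pK_mem M ξ v)
  rw [← inner_conj_symm, Complex.conj_re] at h1
  simp only [inner_sub_left, inner_sub_right, Complex.sub_re] at h1 h2
  linarith

theorem re_inner_pK_self (v : H) : (⟪pK M ξ v, v⟫_ℂ).re = ‖pK M ξ v‖ ^ 2 := by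
  have h1 := pK_orth M ξ v (pK_mem M ξ v)
  rw [← inner_conj_symm, Complex.conj_re] at h1
  simp only [inner_sub_right, Complex.sub_re] at h1
  have h2 : (⟪pK M ξ v, pK M ξ v⟫_ℂ).re = ‖pK M ξ v‖ ^ 2 := by
    rw [inner_self_eq_norm_sq_to_K]; simp [← Complex.ofReal_pow]
  linarith

/-- The projection on `i kS`. -/
noncomputable def qK (v : H) : H := Complex.I • pK M ξ ((-Complex.I) • v)

theorem pK_I_smul (v : H) : pK M ξ (Complex.I • v) = Complex.I • qK M ξ v := by
  rw [qK, smul_smul, Complex.I_mul_I, neg_one_smul, ← map_neg, neg_smul, neg_neg]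

theorem qK_I_smul (v : H) : qK M ξ (Complex.I • v) = Complex.I • pK M ξ v := by
  rw [qK, smul_smul, neg_mul, Complex.I_mul_I, neg_neg, one_smul]

theorem qK_add (u v : H) : qK M ξ (u + v) = qK M ξ u + qK M ξ v := by
  rw [qK, smul_add, map_add, smul_add]; rfl

theorem qK_smul (r : ℝ) (v : H) : qK M ξ (r • v) = r • qK M ξ v := by
  rw [qK, qK, smul_comm, map_smul, smul_comm]

theorem qK_idem (v : H) : qK M ξ (qK M ξ v) = qK M ξ v := by
  rw [qK, qK, smul_smul, neg_mul, Complex.I_mul_I, neg_neg, one_smul, pK_idem]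

theorem qK_symm (u v : H) : (⟪qK M ξ u, v⟫_ℂ).re = (⟪u, qK M ξ v⟫_ℂ).re := by
  have h := pK_symm M ξ ((-Complex.I) • u) ((-Complex.I) • v)
  rw [qK, qK]
  rw [inner_smul_left, inner_smul_right] at h
  rw [inner_smul_left, inner_smul_right]
  simpa using h

theorem norm_qK (v : H) : ‖qK M ξ v‖ = ‖pK M ξ ((-Complex.I) • v)‖ := by
  rw [qK, norm_smul, Complex.norm_I, one_mul]

theorem re_inner_qK_self (v : H) : (⟪qK M ξ v, v⟫_ℂ).re = ‖qK M ξ v‖ ^ 2 := by
  rw [norm_qK, ← re_inner_pK_self, qK, inner_smul_left, inner_smul_right]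
  simp

theorem continuous_qK : Continuous (qK M ξ) :=
  ((pK M ξ).continuous.comp (continuous_const_smul _)).const_smul _

/-- The operator `R`. -/
noncomputable def opR : H →L[ℂ] H where
  toFun v := pK M ξ v + qK M ξ v
  map_add' u v := by
    simp only [map_add, qK_add]; abel
  map_smul' c v := by
    have hc : ∀ w : H, c • w = c.re • w + c.im • (Complex.I • w) := fun w => by
      rw [← Complex.coe_smul, ← Complex.coe_smul c.im, smul_smul, ← add_smul, Complex.re_add_im]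
    rw [RingHom.id_apply, hc v, hc (pK M ξ v + qK M ξ v)]
    simp only [map_add, map_smul, qK_add, qK_smul, pK_I_smul, qK_I_smul, smul_add]
    abel
  cont := (pK M ξ).continuous.add (continuous_qK M ξ)

theorem opR_apply (v : H) : opR M ξ v = pK M ξ v + qK M ξ v := rfl

theorem opR_symm (u v : H) : ⟪opR M ξ u, v⟫_ℂ = ⟪u, opR M ξ v⟫_ℂ := by
  have key : ∀ a b : H, (⟪opR M ξ a, b⟫_ℂ).re = (⟪a, opR M ξ b⟫_ℂ).re := fun a b => by
    simp only [opR_apply, inner_add_left, inner_add_right, Complex.add_re, pK_symm M ξ a b,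
      qK_symm M ξ a b]
  apply Complex.ext (key u v)
  have h := key u (Complex.I • v)
  rw [inner_smul_right, map_smul, inner_smul_right] at h
  simpa using h

theorem opR_selfAdjoint : IsSelfAdjoint (opR M ξ) :=
  (ContinuousLinearMap.isSelfAdjoint_iff_isSymmetric).2 (opR_symm M ξ)

theorem re_inner_opR (v : H) :
    (⟪opR M ξ v, v⟫_ℂ).re = ‖pK M ξ v‖ ^ 2 + ‖qK M ξ v‖ ^ 2 := by
  rw [opR_apply, inner_add_left, Complex.add_re, re_inner_pK_self, re_inner_qK_self]

theorem norm_pK_le (v : H) : ‖pK M ξ v‖ ≤ ‖v‖ := by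
  have h := re_inner_pK_self M ξ v
  have h2 : (⟪pK M ξ v, v⟫_ℂ).re ≤ ‖pK M ξ v‖ * ‖v‖ :=
    ((Complex.re_le_norm _).trans (norm_inner_le_norm _ _))
  nlinarith [norm_nonneg (pK M ξ v), norm_nonneg v]

theorem norm_qK_le (v : H) : ‖qK M ξ v‖ ≤ ‖v‖ := by
  rw [norm_qK]
  refine (norm_pK_le M ξ _).trans_eq ?_
  rw [norm_smul, norm_neg, Complex.norm_I, one_mul]

theorem eq_of_norm_pK {v : H} (h : ‖pK M ξ v‖ = ‖v‖) : pK M ξ v = v := by
  have h1 := re_inner_pK_self M ξ v
  have h2 : ‖pK M ξ v - v‖ ^ 2 = 0 := by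
    rw [@norm_sub_sq ℂ, RCLike.re_eq_complex_re, h1, h]
    ring
  exact sub_eq_zero.1 (norm_eq_zero.1 (pow_eq_zero_iff two_ne_zero |>.1 h2))

/-- Commutant vectors pair really with `kS`. -/
theorem im_inner_kS {y : H →L[ℂ] H} (hy : y ∈ M.commutant) (hs : IsSelfAdjoint y) {v : H}
    (hv : v ∈ kS M ξ) : (⟪y ξ, v⟫_ℂ).im = 0 := by
  have hc : IsClosed {w : H | (⟪y ξ, w⟫_ℂ).im = 0} :=
    isClosed_eq (Complex.continuous_im.comp (Continuous.inner continuous_const continuous_id))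
      continuous_const
  refine closure_minimal ?_ hc hv
  rintro _ ⟨x, hx, hxs, rfl⟩
  show (⟪y ξ, x ξ⟫_ℂ).im = 0
  have e : conj ⟪y ξ, x ξ⟫_ℂ = ⟪y ξ, x ξ⟫_ℂ := by
    rw [inner_conj_symm, inner_proj hxs, inner_proj hs]
    exact congrArg (fun w => ⟪ξ, w⟫_ℂ) (DFunLike.congr_fun (mem_iff_comm.1 hx y hy).symm ξ)
  exact Complex.conj_eq_iff_im.1 e

variable {M ξ}

theorem CycSep.commutant_dense (h : CycSep M ξ) :
    Dense {v : H | ∃ y ∈ M.commutant, y ξ = v} := by
  let W : Submodule ℂ H :=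
    { carrier := {v | ∃ y ∈ M.commutant, y ξ = v}
      zero_mem' := ⟨0, zero_mem _, rfl⟩
      add_mem' := by
        rintro _ _ ⟨x, hx, rfl⟩ ⟨y, hy, rfl⟩
        exact ⟨x + y, add_mem hx hy, rfl⟩
      smul_mem' := by
        rintro c _ ⟨x, hx, rfl⟩
        exact ⟨c • x, smul_mem_vn _ hx, rfl⟩ }
  have hp : cl W ∈ M := cl_mem fun b hb v ⟨y, hy, e⟩ => ⟨b * y, mul_mem hb hy, by simp [← e]⟩
  have h1 : cl W - 1 = 0 := by
    refine h.separating _ (sub_mem hp (one_mem M)) ?_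
    rw [sub_apply, cl_fix (K := W) ⟨1, one_mem _, by simp⟩]
    simp
  have h2 : W.topologicalClosure = ⊤ := by
    refine eq_top_iff.2 fun v _ => ?_
    have := DFunLike.congr_fun (sub_eq_zero.1 h1) v
    rw [one_apply_eq_self] at this
    rw [← this]
    exact W.topologicalClosure.starProjection_apply_mem v
  exact Submodule.dense_iff_topologicalClosure_eq_top.2 h2

theorem CycSep.eq_zero_of_mem (h : CycSep M ξ) {v : H} (h1 : v ∈ kS M ξ)
    (h2 : (-Complex.I) • v ∈ kS M ξ) : v = 0 := by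
  have key : ∀ y ∈ M.commutant, IsSelfAdjoint y → ⟪y ξ, v⟫_ℂ = 0 := by
    intro y hy hs
    have e2 := im_inner_kS M ξ hy hs h2
    rw [inner_smul_right] at e2
    exact Complex.ext (by simpa using e2) (im_inner_kS M ξ hy hs h1)
  refine h.commutant_dense.eq_zero_of_inner_left ℂ fun w hw => ?_
  obtain ⟨y, hy, rfl⟩ := hw
  have e := realPart_add_I_smul_imaginaryPart y
  have hr : (realPart y : H →L[ℂ] H) ∈ M.commutant := by
    rw [realPart_apply_coe]
    exact smul_mem_vn _ (add_mem hy (star_mem hy))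
  have hi : (imaginaryPart y : H →L[ℂ] H) ∈ M.commutant := by
    rw [imaginaryPart_apply_coe]
    exact smul_mem_vn _ (smul_mem_vn _ (sub_mem hy (star_mem hy)))
  rw [← inner_conj_symm, ← e, add_apply, smul_apply, inner_add_left, inner_smul_left,
    key _ hr (realPart y).2, key _ hi (imaginaryPart y).2]
  simp

theorem CycSep.opR_injective (h : CycSep M ξ) {v : H} (hv : opR M ξ v = 0) : v = 0 := by
  have h0 := re_inner_opR M ξ v
  rw [hv, inner_zero_left, Complex.zero_re] at h0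
  have hp : pK M ξ v = 0 := norm_eq_zero.1 (by nlinarith [sq_nonneg ‖qK M ξ v‖])
  have hq : qK M ξ v = 0 := norm_eq_zero.1 (by nlinarith [sq_nonneg ‖pK M ξ v‖])
  refine h.cyclic.eq_zero_of_inner_left ℂ fun w hw => ?_
  obtain ⟨x, hx, rfl⟩ := hw
  have key : ∀ y ∈ M, IsSelfAdjoint y → ⟪v, y ξ⟫_ℂ = 0 := by
    intro y hy hs
    have a := pK_orth M ξ v (mem_kS M ξ hy hs)
    have b := pK_orth M ξ ((-Complex.I) • v) (mem_kS M ξ hy hs)
    rw [hp, sub_zero] at a
    rw [qK, smul_eq_zero] at hq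
    rw [hq.resolve_left Complex.I_ne_zero, sub_zero, inner_smul_left] at b
    exact Complex.ext a (by simpa using b)
  have e := realPart_add_I_smul_imaginaryPart x
  have hr : (realPart x : H →L[ℂ] H) ∈ M := by
    rw [realPart_apply_coe]
    exact smul_mem_vn _ (add_mem hx (star_mem hx))
  have hi : (imaginaryPart x : H →L[ℂ] H) ∈ M := by
    rw [imaginaryPart_apply_coe]
    exact smul_mem_vn _ (smul_mem_vn _ (sub_mem hx (star_mem hx)))
  rw [← e, add_apply, smul_apply, inner_add_right, inner_smul_right, key _ hr (realPart x).2,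
    key _ hi (imaginaryPart x).2]
  simp

theorem CycSep.two_sub_opR_injective (h : CycSep M ξ) {v : H}
    (hv : opR M ξ v = (2 : ℂ) • v) : v = 0 := by
  have h0 := re_inner_opR M ξ v
  rw [hv, inner_smul_left] at h0
  have hn : (⟪v, v⟫_ℂ).re = ‖v‖ ^ 2 := by
    rw [inner_self_eq_norm_sq_to_K]; simp [← Complex.ofReal_pow]
  have h1 : 2 * ‖v‖ ^ 2 = ‖pK M ξ v‖ ^ 2 + ‖qK M ξ v‖ ^ 2 := by
    rw [← h0, ← hn]; simp
  have hp : ‖pK M ξ v‖ = ‖v‖ := by
    nlinarith [norm_pK_le M ξ v, norm_qK_le M ξ v, norm_nonneg (pK M ξ v),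
      norm_nonneg (qK M ξ v), sq_nonneg (‖pK M ξ v‖ - ‖v‖)]
  have hq : ‖pK M ξ ((-Complex.I) • v)‖ = ‖(-Complex.I) • v‖ := by
    rw [← norm_qK, norm_smul, norm_neg, Complex.norm_I, one_mul]
    nlinarith [norm_pK_le M ξ v, norm_qK_le M ξ v, norm_nonneg (pK M ξ v),
      norm_nonneg (qK M ξ v), sq_nonneg (‖qK M ξ v‖ - ‖v‖)]
  refine h.eq_zero_of_mem ?_ ?_
  · rw [← eq_of_norm_pK M ξ hp]; exact pK_mem M ξ v
  · rw [← eq_of_norm_pK M ξ hq]; exact pK_mem M ξ _

end Vale.Agent.P132.Tomita
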